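import Mathlib

/-!
# Dependent rounding for products over blocks

`pipage`: rounding of independent Bernoulli variables to a set of bounded size
without increasing a nonnegative combination of products `∏ (1 - u t)`.

`block_rounding`: the same when each block opens at most one element.
-/

namespace Vale.Agent.Lib.P334

open Finset BigOperators

variable {τ μ ι : Type*} [Fintype τ] [DecidableEq τ] [Fintype μ]

/-- Shift mass `s` from coordinate `b` to coordinate `a`. -/
noncomputable def shift (u : τ → ℝ) (a b : τ) (s : ℝ) : τ → ℝ :=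
  fun t => u t + (if t = a then s else 0) - (if t = b then s else 0)

lemma sum_shift (u : τ → ℝ) (a b : τ) (s : ℝ) : ∑ t, shift u a b s t = ∑ t, u t := by
  unfold shift
  rw [Finset.sum_sub_distrib, Finset.sum_add_distrib]
  simp

lemma prod_split (A : Finset τ) (f : τ → ℝ) (a b : τ) (hab : a ≠ b) :
    ∏ t ∈ A, f t = (if a ∈ A then f a else 1) * (if b ∈ A then f b else 1)
      * ∏ t ∈ (A.erase a).erase b, f t := by
  by_cases ha : a ∈ A
  · by_cases hb : b ∈ A
    · have hb' : b ∈ A.erase a := Finset.mem_erase.mpr ⟨hab.symm, hb⟩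
      rw [if_pos ha, if_pos hb, mul_assoc, Finset.mul_prod_erase (A.erase a) f hb',
        Finset.mul_prod_erase A f ha]
    · have hb' : b ∉ A.erase a := fun h => hb (Finset.mem_of_mem_erase h)
      rw [if_pos ha, if_neg hb, Finset.erase_eq_of_notMem hb', mul_one,
        Finset.mul_prod_erase A f ha]
  · rw [if_neg ha, Finset.erase_eq_of_notMem ha, one_mul]
    by_cases hb : b ∈ A
    · rw [if_pos hb, Finset.mul_prod_erase A f hb]
    · rw [if_neg hb, Finset.erase_eq_of_notMem hb, one_mul]

/-- Concavity along the exchange direction, in the form needed for pipage rounding. -/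
lemma prod_shift_concave (u : τ → ℝ) (a b : τ) (hab : a ≠ b) (A : Finset τ)
    (hu : ∀ t, u t ≤ 1) (d₁ d₂ : ℝ) (hd₁ : 0 ≤ d₁) (hd₂ : 0 ≤ d₂) :
    d₂ * ∏ t ∈ A, (1 - shift u a b d₁ t) + d₁ * ∏ t ∈ A, (1 - shift u a b (-d₂) t)
      ≤ (d₁ + d₂) * ∏ t ∈ A, (1 - u t) := by
  have hR : 0 ≤ ∏ t ∈ (A.erase a).erase b, (1 - u t) :=
    Finset.prod_nonneg (fun t _ => by linarith [hu t])
  have key : ∀ s : ℝ, ∏ t ∈ A, (1 - shift u a b s t)
      = (if a ∈ A then (1 - u a - s) else 1) * (if b ∈ A then (1 - u b + s) else 1)
        * ∏ t ∈ (A.erase a).erase b, (1 - u t) := by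
    intro s
    rw [prod_split A _ a b hab]
    have h1 : ∏ t ∈ (A.erase a).erase b, (1 - shift u a b s t)
        = ∏ t ∈ (A.erase a).erase b, (1 - u t) := by
      apply Finset.prod_congr rfl
      intro t ht
      have htb : t ≠ b := (Finset.mem_erase.mp ht).1
      have hta : t ≠ a := (Finset.mem_erase.mp (Finset.mem_erase.mp ht).2).1
      simp [shift, hta, htb]
    have h2 : 1 - shift u a b s a = 1 - u a - s := by
      simp [shift, hab]; ring
    have h3 : 1 - shift u a b s b = 1 - u b + s := by
      simp [shift, hab.symm]; ring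
    rw [h1, h2, h3]
  have key0 : ∏ t ∈ A, (1 - u t)
      = (if a ∈ A then (1 - u a) else 1) * (if b ∈ A then (1 - u b) else 1)
        * ∏ t ∈ (A.erase a).erase b, (1 - u t) := prod_split A _ a b hab
  rw [key d₁, key (-d₂), key0]
  set R := ∏ t ∈ (A.erase a).erase b, (1 - u t) with hRdef
  by_cases ha : a ∈ A <;> by_cases hb : b ∈ A <;> simp only [ha, hb, if_true, if_false]
  · have : 0 ≤ d₁ * d₂ * (d₁ + d₂) * R := by positivity
    nlinarith
  · nlinarith
  · nlinarith
  · nlinarith

/-- Pipage rounding. -/
lemma pipage (A : μ → Finset τ) (c : μ → ℝ) (hc : ∀ m, 0 ≤ c m) (K : ℕ) :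
    ∀ (n : ℕ) (u : τ → ℝ), (Finset.univ.filter (fun t => 0 < u t ∧ u t < 1)).card = n →
      (∀ t, 0 ≤ u t) → (∀ t, u t ≤ 1) → ∑ t, u t ≤ K →
      ∃ T : Finset τ, T.card ≤ K ∧
        ∑ m, c m * (if Disjoint T (A m) then (1:ℝ) else 0) ≤ ∑ m, c m * ∏ t ∈ A m, (1 - u t) := by
  intro n
  induction n using Nat.strong_induction_on with
  | _ n ih =>
    intro u hn hu0 hu1 hsum
    by_cases hex : ∃ a b, a ≠ b ∧ (0 < u a ∧ u a < 1) ∧ (0 < u b ∧ u b < 1)
    · obtain ⟨a, b, hab, ⟨ha0, ha1⟩, ⟨hb0, hb1⟩⟩ := hex
      -- the two candidate shifts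
      set d₁ := min (1 - u a) (u b) with hd₁def
      set d₂ := min (u a) (1 - u b) with hd₂def
      have hd₁ : 0 < d₁ := lt_min (by linarith) hb0
      have hd₂ : 0 < d₂ := lt_min ha0 (by linarith)
      have hd₁a : d₁ ≤ 1 - u a := min_le_left _ _
      have hd₁b : d₁ ≤ u b := min_le_right _ _
      have hd₂a : d₂ ≤ u a := min_le_left _ _
      have hd₂b : d₂ ≤ 1 - u b := min_le_right _ _
      set up := shift u a b d₁ with hup
      set um := shift u a b (-d₂) with hum
      have hconc : ∀ m, d₂ * (c m * ∏ t ∈ A m, (1 - up t)) + d₁ * (c m * ∏ t ∈ A m, (1 - um t))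
          ≤ (d₁ + d₂) * (c m * ∏ t ∈ A m, (1 - u t)) := by
        intro m
        have := prod_shift_concave u a b hab (A m) hu1 d₁ d₂ hd₁.le hd₂.le
        have h2 := mul_le_mul_of_nonneg_left this (hc m)
        nlinarith
      have hsumconc : d₂ * (∑ m, c m * ∏ t ∈ A m, (1 - up t))
            + d₁ * (∑ m, c m * ∏ t ∈ A m, (1 - um t))
          ≤ (d₁ + d₂) * (∑ m, c m * ∏ t ∈ A m, (1 - u t)) := by
        rw [Finset.mul_sum, Finset.mul_sum, Finset.mul_sum, ← Finset.sum_add_distrib]
        exact Finset.sum_le_sum (fun m _ => hconc m)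
      -- values of the shifts
      have hupa : up a = u a + d₁ := by simp [hup, shift, hab]
      have hupb : up b = u b - d₁ := by simp [hup, shift, hab.symm]
      have hupo : ∀ t, t ≠ a → t ≠ b → up t = u t := by
        intro t h1 h2; simp [hup, shift, h1, h2]
      have huma : um a = u a - d₂ := by simp [hum, shift, hab]; ring
      have humb : um b = u b + d₂ := by simp [hum, shift, hab.symm]
      have humo : ∀ t, t ≠ a → t ≠ b → um t = u t := by
        intro t h1 h2; simp [hum, shift, h1, h2]
      -- a general reduction of the count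
      have hcount : ∀ (v : τ → ℝ), (∀ t, t ≠ a → t ≠ b → v t = u t) →
          ((v a = 0 ∨ v a = 1) ∨ (v b = 0 ∨ v b = 1)) →
          (Finset.univ.filter (fun t => 0 < v t ∧ v t < 1)).card < n := by
        intro v hv hab'
        rw [← hn]
        apply Finset.card_lt_card
        rw [Finset.ssubset_iff_of_subset]
        · rcases hab' with h | h
          · refine ⟨a, ?_, ?_⟩
            · simp [ha0, ha1]
            · rcases h with h | h <;> simp [h]
          · refine ⟨b, ?_, ?_⟩
            · simp [hb0, hb1]
            · rcases h with h | h <;> simp [h]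
        · intro t ht
          simp only [Finset.mem_filter, Finset.mem_univ, true_and] at ht ⊢
          by_cases hta : t = a
          · subst hta; exact ⟨ha0, ha1⟩
          · by_cases htb : t = b
            · subst htb; exact ⟨hb0, hb1⟩
            · rw [hv t hta htb] at ht; exact ht
      -- apply induction to whichever shift is no worse
      by_cases hwhich : (∑ m, c m * ∏ t ∈ A m, (1 - up t)) ≤ ∑ m, c m * ∏ t ∈ A m, (1 - u t)
      · -- use up
        have hcnt := hcount up hupo (by
          rcases le_total (1 - u a) (u b) with h | h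
          · left; right
            have : d₁ = 1 - u a := min_eq_left h
            rw [hupa, this]; ring
          · right; left
            have : d₁ = u b := min_eq_right h
            rw [hupb, this]; ring)
        have hup0 : ∀ t, 0 ≤ up t := by
          intro t
          by_cases hta : t = a
          · subst hta; rw [hupa]; linarith [hu0 t]
          · by_cases htb : t = b
            · subst htb; rw [hupb]; linarith
            · rw [hupo t hta htb]; exact hu0 t
        have hup1 : ∀ t, up t ≤ 1 := by
          intro t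
          by_cases hta : t = a
          · subst hta; rw [hupa]; linarith
          · by_cases htb : t = b
            · subst htb; rw [hupb]; linarith [hu1 t]
            · rw [hupo t hta htb]; exact hu1 t
        have hsumu : ∑ t, up t ≤ K := by rw [hup, sum_shift]; exact hsum
        obtain ⟨T, hT, hTc⟩ := ih _ hcnt up rfl hup0 hup1 hsumu
        exact ⟨T, hT, hTc.trans hwhich⟩
      · -- use um
        push Not at hwhich
        have hwhich2 : (∑ m, c m * ∏ t ∈ A m, (1 - um t)) ≤ ∑ m, c m * ∏ t ∈ A m, (1 - u t) := by
          by_contra hcon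
          push Not at hcon
          nlinarith
        have hcnt := hcount um humo (by
          rcases le_total (u a) (1 - u b) with h | h
          · left; left
            have : d₂ = u a := min_eq_left h
            rw [huma, this]; ring
          · right; right
            have : d₂ = 1 - u b := min_eq_right h
            rw [humb, this]; ring)
        have hum0 : ∀ t, 0 ≤ um t := by
          intro t
          by_cases hta : t = a
          · subst hta; rw [huma]; linarith
          · by_cases htb : t = b
            · subst htb; rw [humb]; linarith [hu0 t]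
            · rw [humo t hta htb]; exact hu0 t
        have hum1 : ∀ t, um t ≤ 1 := by
          intro t
          by_cases hta : t = a
          · subst hta; rw [huma]; linarith [hu1 t]
          · by_cases htb : t = b
            · subst htb; rw [humb]; linarith
            · rw [humo t hta htb]; exact hu1 t
        have hsumu : ∑ t, um t ≤ K := by rw [hum, sum_shift]; exact hsum
        obtain ⟨T, hT, hTc⟩ := ih _ hcnt um rfl hum0 hum1 hsumu
        exact ⟨T, hT, hTc.trans hwhich2⟩
    · -- at most one fractional coordinate: take the positive coordinates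
      push Not at hex
      refine ⟨Finset.univ.filter (fun t => 0 < u t), ?_, ?_⟩
      · -- cardinality
        set T := Finset.univ.filter (fun t => 0 < u t) with hT
        have hTsum : ∑ t ∈ T, u t ≤ K :=
          le_trans (Finset.sum_le_sum_of_subset_of_nonneg (Finset.subset_univ _)
            (fun t _ _ => hu0 t)) hsum
        by_cases hfr : ∃ a, 0 < u a ∧ u a < 1
        · obtain ⟨a, ha0, ha1⟩ := hfr
          have haT : a ∈ T := by simp [hT, ha0]
          have hrest : ∀ t ∈ T.erase a, u t = 1 := by
            intro t ht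
            have hta : t ≠ a := (Finset.mem_erase.mp ht).1
            have ht0 : 0 < u t := by
              have := (Finset.mem_erase.mp ht).2
              simpa [hT] using this
            by_contra hne
            have hlt : u t < 1 := lt_of_le_of_ne (hu1 t) hne
            exact (hex t a hta ⟨ht0, hlt⟩ ha0).not_gt ha1
          have h1 : ∑ t ∈ T, u t = u a + ((T.card : ℝ) - 1) := by
            rw [← Finset.add_sum_erase T u haT, Finset.sum_congr rfl hrest]
            simp [Finset.card_erase_of_mem haT, Nat.cast_sub (Finset.card_pos.mpr ⟨a, haT⟩)]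
          have h2 : ((T.card : ℝ) - 1) < K := by linarith
          have h3 : (T.card : ℝ) < K + 1 := by linarith
          have h4 : T.card < K + 1 := by exact_mod_cast h3
          omega
        · push Not at hfr
          have hrest : ∀ t ∈ T, u t = 1 := by
            intro t ht
            have ht0 : 0 < u t := by simpa [hT] using ht
            exact le_antisymm (hu1 t) (hfr t ht0)
          have h1 : ∑ t ∈ T, u t = T.card := by
            rw [Finset.sum_congr rfl hrest]; simp
          have h2 : (T.card : ℝ) ≤ K := by linarith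
          exact_mod_cast h2
      · apply Finset.sum_le_sum
        intro m _
        apply mul_le_mul_of_nonneg_left _ (hc m)
        split_ifs with hdis
        · have : ∏ t ∈ A m, (1 - u t) = 1 := by
            apply Finset.prod_eq_one
            intro t ht
            have : t ∉ Finset.univ.filter (fun t => 0 < u t) :=
              fun h => (Finset.disjoint_left.mp hdis h) ht
            have h0 : u t = 0 := by
              simp only [Finset.mem_filter, Finset.mem_univ, true_and, not_lt] at this
              exact le_antisymm this (hu0 t)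
            simp [h0]
          rw [this]
        · exact Finset.prod_nonneg (fun t _ => by linarith [hu1 t])

lemma pipage' (A : μ → Finset τ) (c : μ → ℝ) (hc : ∀ m, 0 ≤ c m) (K : ℕ) (u : τ → ℝ)
    (hu0 : ∀ t, 0 ≤ u t) (hu1 : ∀ t, u t ≤ 1) (hsum : ∑ t, u t ≤ K) :
    ∃ T : Finset τ, T.card ≤ K ∧
      ∑ m, c m * (if Disjoint T (A m) then (1:ℝ) else 0) ≤ ∑ m, c m * ∏ t ∈ A m, (1 - u t) :=
  pipage A c hc K _ u rfl hu0 hu1 hsum

variable [Fintype ι] [DecidableEq ι]

/-- Concentrating a block on one representative does not increase the objective. -/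
lemma concentrate_step (z : ι → ℝ) (hz0 : ∀ i, 0 ≤ z i) (N : μ → Finset ι) (c : μ → ℝ)
    (i₀ : ι) :
    ∃ r : ι, ∑ m, c m * (1 - (∑ i, z i) * (if r ∈ N m then 1 else 0))
      ≤ ∑ m, c m * (1 - ∑ i ∈ N m, z i) := by
  set W := ∑ i, z i with hW
  by_cases hpos : 0 < W
  · by_contra hcon
    push Not at hcon
    set V : ι → ℝ := fun r => ∑ m, c m * (1 - W * (if r ∈ N m then 1 else 0)) with hV
    set Avg := ∑ m, c m * (1 - ∑ i ∈ N m, z i) with hAvg
    have hident : ∑ r, z r * V r = W * Avg := by
      simp only [hV, hAvg, Finset.mul_sum]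
      rw [Finset.sum_comm]
      apply Finset.sum_congr rfl
      intro m _
      have hN : ∑ r, z r * (if r ∈ N m then (1:ℝ) else 0) = ∑ i ∈ N m, z i := by
        simp [mul_ite, Finset.sum_ite_mem]
      have h1 : ∀ r, z r * (c m * (1 - W * (if r ∈ N m then (1:ℝ) else 0)))
          = c m * z r - c m * W * (z r * (if r ∈ N m then (1:ℝ) else 0)) := by
        intro r; ring
      simp only [h1]
      rw [Finset.sum_sub_distrib, ← Finset.mul_sum, ← Finset.mul_sum, hN, ← hW]
      ring
    have hex : ∃ r, 0 < z r := by
      by_contra hno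
      push Not at hno
      have : W ≤ 0 := Finset.sum_nonpos (fun r _ => hno r)
      linarith
    have hstrict : 0 < ∑ r, z r * (V r - Avg) := by
      obtain ⟨r, hr⟩ := hex
      apply Finset.sum_pos'
      · intro t _
        exact mul_nonneg (hz0 t) (by linarith [hcon t])
      · exact ⟨r, Finset.mem_univ r, mul_pos hr (by linarith [hcon r])⟩
    have hexp : ∑ r, z r * (V r - Avg) = ∑ r, z r * V r - W * Avg := by
      simp only [mul_sub]
      rw [Finset.sum_sub_distrib, ← Finset.sum_mul]
    rw [hexp, hident] at hstrict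
    linarith
  · have hW0 : W = 0 := le_antisymm (not_lt.mp hpos) (Finset.sum_nonneg (fun i _ => hz0 i))
    have hall : ∀ i, z i = 0 := by
      intro i
      exact (Finset.sum_eq_zero_iff_of_nonneg (fun i _ => hz0 i)).mp hW0 i (Finset.mem_univ i)
    refine ⟨i₀, ?_⟩
    simp [hW0, hall]

/-- Rounding with blocks: each block `t` has a weight vector `z t` of total mass at most `1`,
all masses add to at most `K`.  Then a set of at most `K` elements does at least as well
as the product bound. -/
theorem block_rounding (z : τ → ι → ℝ) (hz0 : ∀ t i, 0 ≤ z t i) (hz1 : ∀ t, ∑ i, z t i ≤ 1)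
    (K : ℕ) (hK : ∑ t, ∑ i, z t i ≤ K) (N : μ → Finset ι) (c : μ → ℝ) (hc : ∀ m, 0 ≤ c m)
    (i₀ : ι) :
    ∃ S : Finset ι, S.card ≤ K ∧
      ∑ m, c m * (if Disjoint S (N m) then (1:ℝ) else 0)
        ≤ ∑ m, c m * ∏ t, (1 - ∑ i ∈ N m, z t i) := by
  classical
  have hle : ∀ t (A : Finset ι), ∑ i ∈ A, z t i ≤ ∑ i, z t i := fun t A =>
    Finset.sum_le_sum_of_subset_of_nonneg (Finset.subset_univ _) (fun i _ _ => hz0 t i)
  have hnn : ∀ t (A : Finset ι), 0 ≤ 1 - ∑ i ∈ A, z t i := fun t A => by
    linarith [hle t A, hz1 t]
  have hmass0 : ∀ t, 0 ≤ ∑ i, z t i := fun t => Finset.sum_nonneg (fun i _ => hz0 t i)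
  -- Phase 1: concentrate every block
  have phase1 : ∀ D : Finset τ, ∃ r : τ → ι,
      ∑ m, c m * ∏ t, (if t ∈ D then 1 - (∑ i, z t i) * (if r t ∈ N m then 1 else 0)
          else 1 - ∑ i ∈ N m, z t i)
        ≤ ∑ m, c m * ∏ t, (1 - ∑ i ∈ N m, z t i) := by
    intro D
    induction D using Finset.induction_on with
    | empty => exact ⟨fun _ => i₀, by simp⟩
    | insert t₀ D ht₀ ih =>
      obtain ⟨r, hr⟩ := ih
      set f : τ → μ → ℝ := fun t m =>
        if t ∈ D then 1 - (∑ i, z t i) * (if r t ∈ N m then 1 else 0)
          else 1 - ∑ i ∈ N m, z t i with hf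
      have hf0 : ∀ t m, 0 ≤ f t m := by
        intro t m
        simp only [hf]
        split_ifs with h1 h2
        · have := hz1 t; linarith
        · simp
        · exact hnn t _
      set c' : μ → ℝ := fun m => c m * ∏ t ∈ Finset.univ.erase t₀, f t m with hc'
      obtain ⟨ρ, hρ⟩ := concentrate_step (z t₀) (hz0 t₀) N c' i₀
      refine ⟨Function.update r t₀ ρ, le_trans ?_ hr⟩
      have hold : ∀ m, c m * ∏ t, (if t ∈ D then 1 - (∑ i, z t i) * (if r t ∈ N m then 1 else 0)
          else 1 - ∑ i ∈ N m, z t i) = c' m * (1 - ∑ i ∈ N m, z t₀ i) := by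
        intro m
        simp only [hc']
        rw [mul_assoc, ← Finset.prod_erase_mul Finset.univ _ (Finset.mem_univ t₀)]
        simp [ht₀, hf]
      have hnew : ∀ m, c m * ∏ t, (if t ∈ insert t₀ D then
            1 - (∑ i, z t i) * (if Function.update r t₀ ρ t ∈ N m then 1 else 0)
          else 1 - ∑ i ∈ N m, z t i)
          = c' m * (1 - (∑ i, z t₀ i) * (if ρ ∈ N m then 1 else 0)) := by
        intro m
        simp only [hc']
        rw [mul_assoc, ← Finset.prod_erase_mul Finset.univ _ (Finset.mem_univ t₀)]
        have h1 : ∏ t ∈ Finset.univ.erase t₀, (if t ∈ insert t₀ D then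
            1 - (∑ i, z t i) * (if Function.update r t₀ ρ t ∈ N m then 1 else 0)
          else 1 - ∑ i ∈ N m, z t i) = ∏ t ∈ Finset.univ.erase t₀, f t m := by
          apply Finset.prod_congr rfl
          intro t ht
          have hne : t ≠ t₀ := (Finset.mem_erase.mp ht).1
          simp [hf, hne, Function.update_of_ne hne]
        rw [h1]
        simp
      rw [Finset.sum_congr rfl (fun m _ => hnew m), Finset.sum_congr rfl (fun m _ => hold m)]
      exact hρ
  obtain ⟨r, hr⟩ := phase1 Finset.univ
  -- Phase 2: pipage on the block masses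
  set A : μ → Finset τ := fun m => Finset.univ.filter (fun t => r t ∈ N m) with hA
  obtain ⟨T, hT, hTc⟩ := pipage' A c hc K (fun t => ∑ i, z t i) hmass0 hz1 hK
  refine ⟨T.image r, le_trans Finset.card_image_le hT, ?_⟩
  refine le_trans ?_ hr
  have h1 : ∀ m, (if Disjoint (T.image r) (N m) then (1:ℝ) else 0)
      = if Disjoint T (A m) then (1:ℝ) else 0 := by
    intro m
    have : Disjoint (T.image r) (N m) ↔ Disjoint T (A m) := by
      simp only [Finset.disjoint_left, Finset.mem_image, hA, Finset.mem_filter, Finset.mem_univ,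
        true_and]
      constructor
      · intro h t ht hrt
        exact h ⟨t, ht, rfl⟩ hrt
      · rintro h _ ⟨t, ht, rfl⟩ hrt
        exact h ht hrt
    simp [this]
  have h2 : ∀ m, ∏ t ∈ A m, (1 - ∑ i, z t i)
      = ∏ t, (if t ∈ (Finset.univ : Finset τ) then
          1 - (∑ i, z t i) * (if r t ∈ N m then 1 else 0) else 1 - ∑ i ∈ N m, z t i) := by
    intro m
    simp only [hA, Finset.prod_filter, Finset.mem_univ, if_true]
    apply Finset.prod_congr rfl
    intro t _
    split_ifs <;> simp
  simp only [h1]
  simpa [h2] using hTc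

/-- Elementary: product of `1 - m t` against the exponential of the negative sum. -/
lemma prod_one_sub_le_exp {τ' : Type*} (T : Finset τ') (m : τ' → ℝ) (h : ∀ t ∈ T, 0 ≤ 1 - m t) :
    ∏ t ∈ T, (1 - m t) ≤ Real.exp (-∑ t ∈ T, m t) := by
  rw [← Finset.sum_neg_distrib, Real.exp_sum]
  exact Finset.prod_le_prod h (fun t _ => Real.one_sub_le_exp_neg (m t))

end Vale.Agent.Lib.P334
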