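import Mathlib
import Vale.Agent.Lib.P334.Rounding

/-!
# Disjoint bundles and the blocks built from an LP solution
-/

namespace Vale.Agent.Lib.P334

open Finset BigOperators

variable {J F : Type*} [Fintype J] [DecidableEq J] [Fintype F] [DecidableEq F]

/-- Greedy choice of pairwise disjoint sets, largest value first. -/
lemma exists_bundles_aux (s : J → Finset F) (a : J → ℝ) :
    ∀ (n : ℕ) (R : Finset J), R.card = n → ∃ M ⊆ R,
      (∀ b ∈ M, ∀ b' ∈ M, b ≠ b' → Disjoint (s b) (s b')) ∧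
      ∀ j ∈ R, (s j).Nonempty → ∃ b ∈ M, a j ≤ a b ∧ ¬ Disjoint (s j) (s b) := by
  intro n
  induction n using Nat.strong_induction_on with
  | _ n ih =>
    intro R hR
    by_cases hne : (R.filter (fun j => (s j).Nonempty)).Nonempty
    · obtain ⟨j0, hj0, hmax⟩ := Finset.exists_max_image _ a hne
      have hj0R : j0 ∈ R := (Finset.mem_filter.mp hj0).1
      have hj0s : (s j0).Nonempty := (Finset.mem_filter.mp hj0).2
      have hlt : (R.filter (fun j => Disjoint (s j) (s j0))).card < n := by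
        rw [← hR]
        apply Finset.card_lt_card
        rw [Finset.ssubset_iff_of_subset (Finset.filter_subset _ _)]
        refine ⟨j0, hj0R, ?_⟩
        intro hmem
        have hd := (Finset.mem_filter.mp hmem).2
        exact (Finset.disjoint_self_iff_empty _).mp hd ▸ Finset.not_nonempty_empty <| hj0s
      obtain ⟨M, hMR, hpw, hcov⟩ := ih _ hlt _ rfl
      have hj0M : j0 ∉ M := by
        intro h
        have := hMR h
        have hd := (Finset.mem_filter.mp this).2
        exact (Finset.disjoint_self_iff_empty _).mp hd ▸ Finset.not_nonempty_empty <| hj0s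
      refine ⟨insert j0 M, ?_, ?_, ?_⟩
      · intro b hb
        rcases Finset.mem_insert.mp hb with h | h
        · rw [h]; exact hj0R
        · exact (Finset.mem_filter.mp (hMR h)).1
      · intro b hb b' hb' hbb'
        rcases Finset.mem_insert.mp hb with h | h
        · rcases Finset.mem_insert.mp hb' with h' | h'
          · exact absurd (h.trans h'.symm) hbb'
          · rw [h]
            exact ((Finset.mem_filter.mp (hMR h')).2).symm
        · rcases Finset.mem_insert.mp hb' with h' | h'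
          · rw [h']
            exact (Finset.mem_filter.mp (hMR h)).2
          · exact hpw b h b' h' hbb'
      · intro j hj hjs
        by_cases hd : Disjoint (s j) (s j0)
        · obtain ⟨b, hb, hab, hnd⟩ := hcov j (Finset.mem_filter.mpr ⟨hj, hd⟩) hjs
          exact ⟨b, Finset.mem_insert_of_mem hb, hab, hnd⟩
        · exact ⟨j0, Finset.mem_insert_self _ _, hmax j (Finset.mem_filter.mpr ⟨hj, hjs⟩), hd⟩
    · refine ⟨∅, Finset.empty_subset _, by simp, ?_⟩
      intro j hj hjs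
      exact absurd ⟨j, Finset.mem_filter.mpr ⟨hj, hjs⟩⟩ hne

/-- Weights of the bundle block of `b`. -/
noncomputable def zb (M : Finset J) (s : J → Finset F)
    (x : J → F → ℝ) (b : J) (i : F) : ℝ :=
  if b ∈ M ∧ i ∈ s b then x b i else 0

/-- Total bundled mass at `i`. -/
noncomputable def bsum (M : Finset J) (s : J → Finset F) (x : J → F → ℝ) (i : F) : ℝ :=
  ∑ b, zb M s x b i

/-- All the blocks: one per client (possibly zero) and one per facility. -/
noncomputable def blk (M : Finset J) (s : J → Finset F) (x : J → F → ℝ) (y : F → ℝ) :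
    J ⊕ F → F → ℝ
  | Sum.inl b => zb M s x b
  | Sum.inr f => fun i => if i = f then y f - bsum M s x f else 0

section blocks

variable (M : Finset J) (s : J → Finset F) (x : J → F → ℝ) (y : F → ℝ)

lemma zb_nonneg (hx0 : ∀ j i, 0 ≤ x j i) (b : J) (i : F) : 0 ≤ zb M s x b i := by
  unfold zb; split_ifs
  · exact hx0 b i
  · exact le_refl 0

lemma zb_le_x (hx0 : ∀ j i, 0 ≤ x j i) (b : J) (i : F) : zb M s x b i ≤ x b i := by
  unfold zb; split_ifs
  · exact le_refl _
  · exact hx0 b i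

lemma bsum_nonneg (hx0 : ∀ j i, 0 ≤ x j i) (i : F) : 0 ≤ bsum M s x i :=
  Finset.sum_nonneg (fun b _ => zb_nonneg M s x hx0 b i)

lemma bsum_le_y (hx0 : ∀ j i, 0 ≤ x j i) (hxy : ∀ j i, x j i ≤ y i) (hy0 : ∀ i, 0 ≤ y i)
    (hpw : ∀ b ∈ M, ∀ b' ∈ M, b ≠ b' → Disjoint (s b) (s b')) (i : F) :
    bsum M s x i ≤ y i := by
  unfold bsum
  by_cases h : ∃ b0, b0 ∈ M ∧ i ∈ s b0
  · obtain ⟨b0, hb0, hi0⟩ := h
    rw [Finset.sum_eq_single b0]
    · exact (zb_le_x M s x hx0 b0 i).trans (hxy b0 i)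
    · intro b _ hne
      unfold zb
      rw [if_neg]
      rintro ⟨hb, hib⟩
      exact (Finset.disjoint_left.mp (hpw b hb b0 hb0 hne) hib) hi0
    · intro hmem; exact absurd (Finset.mem_univ b0) hmem
  · push Not at h
    have : ∑ b, zb M s x b i = 0 := by
      apply Finset.sum_eq_zero
      intro b _
      unfold zb
      rw [if_neg]
      rintro ⟨hb, hib⟩
      exact h b hb hib
    rw [this]; exact hy0 i

lemma zb_le_y (hx0 : ∀ j i, 0 ≤ x j i) (hxy : ∀ j i, x j i ≤ y i) (hy0 : ∀ i, 0 ≤ y i)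
    (hpw : ∀ b ∈ M, ∀ b' ∈ M, b ≠ b' → Disjoint (s b) (s b')) (b : J) (i : F) :
    zb M s x b i ≤ y i :=
  (zb_le_x M s x hx0 b i).trans (hxy b i)

lemma blk_nonneg (hx0 : ∀ j i, 0 ≤ x j i) (hxy : ∀ j i, x j i ≤ y i) (hy0 : ∀ i, 0 ≤ y i)
    (hpw : ∀ b ∈ M, ∀ b' ∈ M, b ≠ b' → Disjoint (s b) (s b')) (t : J ⊕ F) (i : F) :
    0 ≤ blk M s x y t i := by
  cases t with
  | inl b => exact zb_nonneg M s x hx0 b i
  | inr f =>
    simp only [blk]
    split_ifs with h
    · have := bsum_le_y M s x y hx0 hxy hy0 hpw f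
      linarith
    · exact le_refl 0

lemma blk_mass_le (hx0 : ∀ j i, 0 ≤ x j i) (hx1 : ∀ j, ∑ i, x j i = 1) (hy1 : ∀ i, y i ≤ 1)
    (t : J ⊕ F) : ∑ i, blk M s x y t i ≤ 1 := by
  cases t with
  | inl b =>
    simp only [blk]
    rw [← hx1 b]
    exact Finset.sum_le_sum (fun i _ => zb_le_x M s x hx0 b i)
  | inr f =>
    simp only [blk, Finset.sum_ite_eq', Finset.mem_univ, if_true]
    have := bsum_nonneg M s x hx0 f
    linarith [hy1 f]

lemma blk_sum_on (N : Finset F) :
    ∑ t, ∑ i ∈ N, blk M s x y t i = ∑ i ∈ N, y i := by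
  rw [Fintype.sum_sum_type]
  simp only [blk]
  have h1 : ∑ b, ∑ i ∈ N, zb M s x b i = ∑ i ∈ N, bsum M s x i := by
    rw [Finset.sum_comm]; rfl
  have h2 : ∑ f, ∑ i ∈ N, (if i = f then y f - bsum M s x f else 0)
      = ∑ i ∈ N, (y i - bsum M s x i) := by
    rw [Finset.sum_comm]
    apply Finset.sum_congr rfl
    intro i _
    simp [Finset.sum_ite_eq]
  rw [h1, h2, ← Finset.sum_add_distrib]
  apply Finset.sum_congr rfl
  intro i _
  ring

end blocks

/-- The product for a family of blocks, with one block singled out. -/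
lemma Q_le {τ : Type*} [Fintype τ] [DecidableEq τ] (z : τ → F → ℝ)
    (hz0 : ∀ t i, 0 ≤ z t i) (hz1 : ∀ t, ∑ i, z t i ≤ 1) (N : Finset F) (t0 : τ) :
    ∏ t, (1 - ∑ i ∈ N, z t i)
      ≤ (1 - ∑ i ∈ N, z t0 i) * Real.exp (∑ i ∈ N, z t0 i - ∑ t, ∑ i ∈ N, z t i) := by
  have hle : ∀ t, ∑ i ∈ N, z t i ≤ ∑ i, z t i := fun t =>
    Finset.sum_le_sum_of_subset_of_nonneg (Finset.subset_univ _) (fun i _ _ => hz0 t i)
  have hnn : ∀ t, 0 ≤ 1 - ∑ i ∈ N, z t i := fun t => by linarith [hle t, hz1 t]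
  rw [← Finset.mul_prod_erase Finset.univ _ (Finset.mem_univ t0)]
  apply mul_le_mul_of_nonneg_left _ (hnn t0)
  have h := prod_one_sub_le_exp (Finset.univ.erase t0) (fun t => ∑ i ∈ N, z t i)
    (fun t _ => hnn t)
  refine h.trans (le_of_eq ?_)
  congr 1
  rw [← Finset.add_sum_erase Finset.univ _ (Finset.mem_univ t0)]
  ring

/-- Comparison of exponents for a client against a block contained in `y`. -/
lemma exponent_le (Z xj y : F → ℝ) (N : Finset F) (hZy : ∀ i, Z i ≤ y i) (hxy : ∀ i, xj i ≤ y i) :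
    ∑ i ∈ N, Z i - ∑ i ∈ N, y i ≤ ∑ i ∈ N, min (xj i) (Z i) - ∑ i ∈ N, xj i := by
  rw [← Finset.sum_sub_distrib, ← Finset.sum_sub_distrib]
  apply Finset.sum_le_sum
  intro i _
  rcases le_total (xj i) (Z i) with h | h
  · rw [min_eq_left h]; linarith [hZy i]
  · rw [min_eq_right h]; linarith [hxy i]

lemma overlap_le_left (Z xj : F → ℝ) (N : Finset F) :
    ∑ i ∈ N, min (xj i) (Z i) ≤ ∑ i ∈ N, Z i :=
  Finset.sum_le_sum (fun i _ => min_le_right _ _)

lemma overlap_le_right (Z xj : F → ℝ) (N : Finset F) :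
    ∑ i ∈ N, min (xj i) (Z i) ≤ ∑ i ∈ N, xj i :=
  Finset.sum_le_sum (fun i _ => min_le_left _ _)

/-- Monotonicity of overlap minus mass. -/
lemma overlap_mono (Z xj : F → ℝ) (N N' : Finset F) (h : N ⊆ N') (hx : ∀ i, 0 ≤ xj i)
    (hZ : ∀ i, 0 ≤ Z i) :
    ∑ i ∈ N', min (xj i) (Z i) - ∑ i ∈ N', xj i ≤ ∑ i ∈ N, min (xj i) (Z i) - ∑ i ∈ N, xj i := by
  rw [← Finset.sum_sub_distrib, ← Finset.sum_sub_distrib]
  have h1 : ∑ i ∈ N, (xj i - min (xj i) (Z i)) ≤ ∑ i ∈ N', (xj i - min (xj i) (Z i)) :=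
    Finset.sum_le_sum_of_subset_of_nonneg h
      (fun i _ _ => by linarith [min_le_left (xj i) (Z i)])
  have e1 : ∑ i ∈ N, (min (xj i) (Z i) - xj i) = - ∑ i ∈ N, (xj i - min (xj i) (Z i)) := by
    rw [← Finset.sum_neg_distrib]; apply Finset.sum_congr rfl; intro i _; ring
  have e2 : ∑ i ∈ N', (min (xj i) (Z i) - xj i) = - ∑ i ∈ N', (xj i - min (xj i) (Z i)) := by
    rw [← Finset.sum_neg_distrib]; apply Finset.sum_congr rfl; intro i _; ring
  rw [e1, e2]
  linarith

end Vale.Agent.Lib.P334
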