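import Mathlib

/-!
# The real inequality behind the per-client bound
-/

namespace Vale.Agent.Lib.P334

lemma one_sub_mul_exp_le (v : ℝ) : (1 - v) * Real.exp v ≤ 1 := by
  have h := Real.one_sub_le_exp_neg v
  have h2 : Real.exp (-v) * Real.exp v = 1 := by rw [← Real.exp_add]; simp
  have h3 := Real.exp_pos v
  nlinarith

lemma sub_mul_exp_le (A D : ℝ) (hA0 : 0 ≤ A) (hA1 : A ≤ 1) (hD : 0 ≤ D) :
    (A - D) * Real.exp D ≤ A := by
  have h := Real.one_sub_le_exp_neg D
  have h2 : Real.exp (-D) * Real.exp D = 1 := by rw [← Real.exp_add]; simp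
  have h3 := Real.exp_pos D
  have h4 : A - D ≤ A * Real.exp (-D) := by nlinarith
  calc (A - D) * Real.exp D ≤ (A * Real.exp (-D)) * Real.exp D :=
        mul_le_mul_of_nonneg_right h4 h3.le
    _ = A := by rw [mul_assoc, h2, mul_one]

lemma key_two (r m n : ℝ) (hr0 : 0 ≤ r) (hr1 : r ≤ 1 / 2) (hnm : n ≤ m) :
    (1 - r - m) * Real.exp m + (1 + r - n) * Real.exp n ≤ 2 := by
  by_cases hmr : m ≤ r
  · -- first case: compare at `m`
    have hD : 0 ≤ m - n := by linarith
    have h1 : (1 + r - n) * Real.exp n ≤ (1 + r - m) * Real.exp m := by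
      have hexp : Real.exp m = Real.exp n * Real.exp (m - n) := by
        rw [← Real.exp_add]; congr 1; ring
      have h2 : m - n + 1 ≤ Real.exp (m - n) := Real.add_one_le_exp _
      have h3 := Real.exp_pos n
      rw [hexp]
      have h4 : 1 + r - n ≤ (1 + r - m) * Real.exp (m - n) := by
        have : 1 ≤ 1 + r - m := by linarith
        nlinarith
      nlinarith
    have h2 := one_sub_mul_exp_le m
    nlinarith
  · push Not at hmr
    have h1 : (1 + r - n) * Real.exp n ≤ Real.exp r := by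
      have := one_sub_mul_exp_le (n - r)
      have hexp : Real.exp n = Real.exp (n - r) * Real.exp r := by
        rw [← Real.exp_add]; congr 1; ring
      have h3 := Real.exp_pos r
      rw [hexp]
      have h5 : (1 - (n - r)) * Real.exp (n - r) * Real.exp r ≤ 1 * Real.exp r :=
        mul_le_mul_of_nonneg_right this h3.le
      nlinarith
    have h2 : (1 - r - m) * Real.exp m ≤ (1 - 2 * r) * Real.exp r := by
      have := sub_mul_exp_le (1 - 2 * r) (m - r) (by linarith) (by linarith) (by linarith)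
      have hexp : Real.exp m = Real.exp (m - r) * Real.exp r := by
        rw [← Real.exp_add]; congr 1; ring
      have h3 := Real.exp_pos r
      rw [hexp]
      have h5 : (1 - 2 * r - (m - r)) * Real.exp (m - r) * Real.exp r
          ≤ (1 - 2 * r) * Real.exp r := mul_le_mul_of_nonneg_right this h3.le
      nlinarith
    have h3 := one_sub_mul_exp_le r
    nlinarith

lemma exp_three_quarters_le : Real.exp (3 / 4) ≤ 2.12 := by
  have h1 : Real.exp (3 / 4) ^ 4 = Real.exp 1 ^ 3 := by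
    rw [← Real.exp_nat_mul, ← Real.exp_nat_mul]; norm_num
  have h2 : Real.exp 1 < 2.7182818286 := Real.exp_one_lt_d9
  have h3 : Real.exp 1 ^ 3 < 2.7182818286 ^ 3 :=
    pow_lt_pow_left₀ h2 (Real.exp_pos _).le (by norm_num)
  by_contra hcon
  push Not at hcon
  have h4 : (2.12 : ℝ) ^ 4 < Real.exp (3 / 4) ^ 4 :=
    pow_lt_pow_left₀ hcon (by norm_num) (by norm_num)
  rw [h1] at h4
  norm_num at h3 h4
  linarith

lemma exp_half_le : Real.exp (1 / 2) ≤ 2 := by
  have h1 : Real.exp (1 / 2) ^ 2 = Real.exp 1 := by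
    rw [← Real.exp_nat_mul]; norm_num
  have h2 : Real.exp 1 < 2.7182818286 := Real.exp_one_lt_d9
  by_contra hcon
  push Not at hcon
  have h4 : (2 : ℝ) ^ 2 < Real.exp (1 / 2) ^ 2 :=
    pow_lt_pow_left₀ hcon (by norm_num) (by norm_num)
  rw [h1] at h4
  norm_num at h4
  linarith

/-- Chord bound for the exponential on `[0, b]`. -/
lemma exp_chord (b t : ℝ) (hb : 0 < b) (ht0 : 0 ≤ t) (htb : t ≤ b) :
    Real.exp t ≤ 1 + t / b * (Real.exp b - 1) := by
  have h := convexOn_exp.2 (Set.mem_univ b) (Set.mem_univ (0:ℝ))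
    (div_nonneg ht0 hb.le) (sub_nonneg.mpr ((div_le_one hb).mpr htb))
    (by ring : t / b + (1 - t / b) = 1)
  simp only [smul_eq_mul, mul_zero, add_zero, Real.exp_zero, mul_one] at h
  have h2 : t / b * b = t := by field_simp
  rw [h2] at h
  linarith

lemma exp_neg_one_lt : Real.exp (-1) < 0.37 := by
  have he1 : (2.7182818283 : ℝ) < Real.exp 1 := Real.exp_one_gt_d9
  have h : Real.exp (-1) * Real.exp 1 = 1 := by rw [← Real.exp_add]; simp
  have h0 := Real.exp_pos (-1 : ℝ)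
  nlinarith

/-- Bound on `2 G` in the small case. -/
lemma small_G (s : ℝ) (hs0 : 0 ≤ s) (hs1 : s ≤ 1 / 2) :
    1 + 2 * Real.exp (3 * (s / 2) - 1) ≤ (1 + 2 * Real.exp (-1)) * (1 + s) := by
  have hfac : Real.exp (3 * (s / 2) - 1) = Real.exp (-1) * Real.exp (3 / 2 * s) := by
    rw [← Real.exp_add]; congr 1; ring
  have hch := exp_chord (3 / 4) (3 / 2 * s) (by norm_num) (by positivity) (by linarith)
  have h34 := exp_three_quarters_le
  have hex : Real.exp (3 / 2 * s) ≤ 1 + 2.24 * s := by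
    have e : 3 / 2 * s / (3 / 4) = 2 * s := by ring
    rw [e] at hch
    nlinarith
  have hε := Real.exp_pos (-1 : ℝ)
  have hεlt := exp_neg_one_lt
  rw [hfac]
  have h10 : 0 ≤ s * (1 - 2.48 * Real.exp (-1)) := mul_nonneg hs0 (by linarith)
  have h11 : Real.exp (-1) * Real.exp (3 / 2 * s) ≤ Real.exp (-1) * (1 + 2.24 * s) :=
    mul_le_mul_of_nonneg_left hex hε.le
  nlinarith

/-- The main case of the client inequality. -/
lemma small_case (s t2 u w : ℝ) (hs0 : 0 ≤ s) (hs1 : s ≤ 1 / 2) (ht20 : 0 ≤ t2)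
    (hwt : w ≤ 1 - t2) (hm1 : w - (1 - t2) ≤ u - (1 - s)) :
    1 + (1 - u) * Real.exp (u - (1 - s)) + (1 - w + 2 * s) * Real.exp (w - (1 - t2))
      ≤ (1 + 2 * Real.exp (-1)) * (1 + s + t2) := by
  obtain ⟨r, hr⟩ : ∃ r, r = s / 2 := ⟨_, rfl⟩
  obtain ⟨m, hm⟩ : ∃ m, m = u - r := ⟨_, rfl⟩
  obtain ⟨n, hn⟩ : ∃ n, n = w + t2 - 3 * r := ⟨_, rfl⟩
  have hGpos : 0 < Real.exp (3 * r - 1) := Real.exp_pos _
  have he1 : Real.exp (u - (1 - s)) = Real.exp m * Real.exp (3 * r - 1) := by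
    rw [← Real.exp_add]; congr 1; subst hm; subst hr; ring
  have he2 : Real.exp (w - (1 - t2)) = Real.exp n * Real.exp (3 * r - 1) := by
    rw [← Real.exp_add]; congr 1; subst hn; subst hr; ring
  have hnm : n ≤ m := by subst hn; subst hm; subst hr; linarith
  have hkey := key_two r m n (by subst hr; positivity) (by subst hr; linarith) hnm
  have hexpn : Real.exp n * Real.exp (3 * r - 1) ≤ 1 := by
    rw [← he2]
    exact Real.exp_le_one_iff.mpr (by linarith)
  have e1 : 1 - u = 1 - r - m := by subst hm; ring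
  have e2 : 1 - w + 2 * s = (1 + r - n) + t2 := by subst hn; subst hr; ring
  rw [he1, he2, e1, e2]
  have h7 : Real.exp (3 * r - 1) * ((1 - r - m) * Real.exp m + (1 + r - n) * Real.exp n)
      ≤ Real.exp (3 * r - 1) * 2 := mul_le_mul_of_nonneg_left hkey hGpos.le
  have h8 : t2 * (Real.exp n * Real.exp (3 * r - 1)) ≤ t2 * 1 :=
    mul_le_mul_of_nonneg_left hexpn ht20
  have h9 := small_G s hs0 hs1
  rw [← hr] at h9
  have hε := Real.exp_pos (-1 : ℝ)
  have h10 : 0 ≤ Real.exp (-1) * t2 := by positivity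
  have e3 : (1 - r - m) * (Real.exp m * Real.exp (3 * r - 1))
        + (1 + r - n + t2) * (Real.exp n * Real.exp (3 * r - 1))
      = Real.exp (3 * r - 1) * ((1 - r - m) * Real.exp m + (1 + r - n) * Real.exp n)
        + t2 * (Real.exp n * Real.exp (3 * r - 1)) := by ring
  nlinarith

/-- The key estimate in the large case. -/
lemma large_s (s : ℝ) (hs0 : 1 / 2 ≤ s) (hs1 : s ≤ 1) :
    1 + Real.exp (s - 1) + Real.exp (-1) + 2 * (s * Real.exp (-s))
      ≤ (1 + 2 * Real.exp (-1)) * (1 + s) := by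
  obtain ⟨t, ht⟩ : ∃ t, t = s - 1 / 2 := ⟨_, rfl⟩
  have hst : s = 1 / 2 + t := by subst ht; ring
  have ht0 : 0 ≤ t := by subst ht; linarith
  have ht1 : t ≤ 1 / 2 := by subst ht; linarith
  obtain ⟨κ, hκ⟩ : ∃ κ, κ = Real.exp (-(1 / 2)) := ⟨_, rfl⟩
  have hκpos : 0 < κ := by rw [hκ]; exact Real.exp_pos _
  have hκ2 : Real.exp (-1) = κ * κ := by
    rw [hκ, ← Real.exp_add]; congr 1; ring
  obtain ⟨E, hE⟩ : ∃ E, E = Real.exp t := ⟨_, rfl⟩
  obtain ⟨H, hH⟩ : ∃ H, H = Real.exp (-t) := ⟨_, rfl⟩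
  have hEH : E * H = 1 := by rw [hE, hH, ← Real.exp_add]; simp
  have hE1 : 1 ≤ E := by rw [hE]; exact Real.one_le_exp ht0
  have hHpos : 0 < H := by rw [hH]; exact Real.exp_pos _
  have hE2 : E ≤ 1 + 2 * t := by
    have hch := exp_chord (1 / 2) t (by norm_num) ht0 ht1
    have h12 := exp_half_le
    have e : t / (1 / 2) = 2 * t := by ring
    rw [e] at hch
    rw [hE]
    nlinarith
  have hmix : E + (1 + 2 * t) * H ≤ 2 + 2 * t := by
    have h5 : 0 ≤ H * ((E - 1) * (1 + 2 * t - E)) :=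
      mul_nonneg hHpos.le (mul_nonneg (by linarith) (by linarith))
    have h6 : H * ((E - 1) * (1 + 2 * t - E))
        = (2 + 2 * t) * (E * H) - E * (E * H) - (1 + 2 * t) * H := by ring
    rw [h6, hEH] at h5
    linarith
  have e1 : Real.exp (s - 1) = κ * E := by
    rw [hκ, hE, ← Real.exp_add]; congr 1; subst ht; ring
  have e2 : Real.exp (-s) = κ * H := by
    rw [hκ, hH, ← Real.exp_add]; congr 1; rw [hst]; ring
  rw [e1, e2, hκ2, hst]
  have h5 : κ * (E + (1 + 2 * t) * H) ≤ κ * (2 + 2 * t) :=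
    mul_le_mul_of_nonneg_left hmix hκpos.le
  have h7 : 0 ≤ 2 * (κ - 1 / 2) ^ 2 + t * ((1 - κ) ^ 2 + κ ^ 2) := by positivity
  nlinarith

/-- Bound for the far levels in the large case. -/
lemma large_far (s a' o A Q : ℝ) (hs0 : 0 ≤ s) (hs1 : s ≤ 1) (hsa : 1 - s ≤ a') (ha'1 : a' ≤ 1)
    (hA : 1 - s ≤ A) (hA1 : A ≤ 1) (ho : o ≤ a')
    (hQ : Q ≤ (1 - a') * Real.exp (o - A)) :
    Q ≤ s * Real.exp (-s) + (1 - Real.exp (-1)) * (1 - A) := by
  have hεe : Real.exp (-1) * Real.exp 1 = 1 := by rw [← Real.exp_add]; simp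
  have he1 : (2.7182818283 : ℝ) < Real.exp 1 := Real.exp_one_gt_d9
  have hsexp : s * Real.exp (-s) ≤ Real.exp (-1) := by
    have h5 : s ≤ Real.exp (s - 1) := by
      have := Real.add_one_le_exp (s - 1)
      linarith
    have h6 : Real.exp (s - 1) * Real.exp (-s) = Real.exp (-1) := by
      rw [← Real.exp_add]; congr 1; ring
    have h7 := Real.exp_pos (-s)
    nlinarith
  refine hQ.trans ?_
  have h1a' : 0 ≤ 1 - a' := by linarith
  have h5 : Real.exp (o - A) ≤ Real.exp (a' - A) := Real.exp_le_exp.mpr (by linarith)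
  have h6 : (1 - a') * Real.exp (a' - (1 - s)) ≤ s := by
    have := sub_mul_exp_le s (a' - (1 - s)) hs0 hs1 (by linarith)
    have e : s - (a' - (1 - s)) = 1 - a' := by ring
    rw [e] at this
    exact this
  have hexp : Real.exp (a' - A)
      = Real.exp (a' - (1 - s)) * (Real.exp (-s) * Real.exp (1 - A)) := by
    rw [← Real.exp_add, ← Real.exp_add]; congr 1; ring
  have hch := exp_chord 1 (1 - A) (by norm_num) (by linarith) (by linarith)
  simp only [div_one] at hch
  have h8 : (1 - a') * Real.exp (o - A) ≤ (1 - a') * Real.exp (a' - A) :=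
    mul_le_mul_of_nonneg_left h5 h1a'
  have h9 : (1 - a') * Real.exp (a' - A)
      = ((1 - a') * Real.exp (a' - (1 - s))) * (Real.exp (-s) * Real.exp (1 - A)) := by
    rw [hexp]; ring
  have h10 : 0 ≤ Real.exp (-s) * Real.exp (1 - A) := by positivity
  have h11 : (1 - a') * Real.exp (a' - A) ≤ s * (Real.exp (-s) * Real.exp (1 - A)) := by
    rw [h9]
    exact mul_le_mul_of_nonneg_right h6 h10
  have h12 : s * Real.exp (-s) * Real.exp (1 - A)
      ≤ s * Real.exp (-s) * (1 + (1 - A) * (Real.exp 1 - 1)) :=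
    mul_le_mul_of_nonneg_left hch (by positivity)
  have h13 : s * Real.exp (-s) * ((1 - A) * (Real.exp 1 - 1))
      ≤ Real.exp (-1) * ((1 - A) * (Real.exp 1 - 1)) := by
    apply mul_le_mul_of_nonneg_right hsexp
    apply mul_nonneg (by linarith)
    linarith
  have h14 : Real.exp (-1) * ((1 - A) * (Real.exp 1 - 1)) = (1 - Real.exp (-1)) * (1 - A) := by
    have e : Real.exp (-1) * ((1 - A) * (Real.exp 1 - 1))
        = (Real.exp (-1) * Real.exp 1 - Real.exp (-1)) * (1 - A) := by ring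
    rw [e, hεe]
  nlinarith

/-- The inequality for a client, with distances in `{1,…,5}`. -/
lemma final_ineq (a τ A3 A4 a' u w o3 o4 Q1 Q2 Q3 Q4 : ℝ)
    (ha0 : 0 ≤ a) (h1 : a ≤ τ) (h2 : τ ≤ A3) (h3 : A3 ≤ A4) (h4 : A4 ≤ 1)
    (haa' : a ≤ a') (ha'1 : a' ≤ 1) (hwτ : w ≤ τ)
    (hm1 : w - τ ≤ u - a) (hm2 : o3 - A3 ≤ w - τ) (hm3 : o4 - A4 ≤ w - τ)
    (ho3 : o3 ≤ a') (ho4 : o4 ≤ a')
    (hQ1 : Q1 ≤ (1 - u) * Real.exp (u - a))
    (hQ2 : Q2 ≤ (1 - w) * Real.exp (w - τ))
    (hQ3 : Q3 ≤ (1 - a') * Real.exp (o3 - A3))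
    (hQ4 : Q4 ≤ (1 - a') * Real.exp (o4 - A4)) :
    1 + Q1 + Q2 + Q3 + Q4
      ≤ (1 + 2 * Real.exp (-1)) * (1 + (1 - a) + (1 - τ) + (1 - A3) + (1 - A4)) := by
  have hε := Real.exp_pos (-1 : ℝ)
  have hεlt := exp_neg_one_lt
  by_cases hsh : 1 - a ≤ 1 / 2
  · -- main case
    have hs0 : 0 ≤ 1 - a := by linarith
    have h1a' : 0 ≤ 1 - a' := by linarith
    have hQ3' : Q3 ≤ (1 - a) * Real.exp (w - τ) := by
      refine hQ3.trans ?_
      exact mul_le_mul (by linarith) (Real.exp_le_exp.mpr hm2) (Real.exp_pos _).le hs0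
    have hQ4' : Q4 ≤ (1 - a) * Real.exp (w - τ) := by
      refine hQ4.trans ?_
      exact mul_le_mul (by linarith) (Real.exp_le_exp.mpr hm3) (Real.exp_pos _).le hs0
    have hmain := small_case (1 - a) (1 - τ) u w hs0 hsh (by linarith) (by linarith) (by linarith)
    have e1 : 1 - (1 - a) = a := by ring
    have e2 : 1 - (1 - τ) = τ := by ring
    rw [e1, e2] at hmain
    have e3 : (1 - w + 2 * (1 - a)) * Real.exp (w - τ)
        = (1 - w) * Real.exp (w - τ) + 2 * ((1 - a) * Real.exp (w - τ)) := by ring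
    rw [e3] at hmain
    have h9 : 0 ≤ (1 + 2 * Real.exp (-1)) * ((1 - A3) + (1 - A4)) :=
      mul_nonneg (by linarith) (by linarith)
    have e4 : (1 + 2 * Real.exp (-1)) * (1 + (1 - a) + (1 - τ) + (1 - A3) + (1 - A4))
        = (1 + 2 * Real.exp (-1)) * (1 + (1 - a) + (1 - τ))
          + (1 + 2 * Real.exp (-1)) * ((1 - A3) + (1 - A4)) := by ring
    rw [e4]
    linarith
  · -- second case
    push Not at hsh
    have hs0 : 0 ≤ 1 - a := by linarith
    have hs1 : 1 - a ≤ 1 := by linarith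
    have e5 : 1 - (1 - a) = a := by ring
    have hQ1' : Q1 ≤ Real.exp (-a) := by
      refine hQ1.trans ?_
      have h5 := one_sub_mul_exp_le u
      have hexp : Real.exp (u - a) = Real.exp u * Real.exp (-a) := by
        rw [← Real.exp_add]; congr 1
      rw [hexp, ← mul_assoc]
      have h6 := mul_le_mul_of_nonneg_right h5 (Real.exp_pos (-a)).le
      linarith
    have hQ2' : Q2 ≤ Real.exp (-1) + (1 - Real.exp (-1)) * (1 - τ) := by
      refine hQ2.trans ?_
      have h5 := one_sub_mul_exp_le w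
      have hexp : Real.exp (w - τ) = Real.exp w * (Real.exp (-1) * Real.exp (1 - τ)) := by
        rw [← Real.exp_add, ← Real.exp_add]; congr 1; ring
      rw [hexp, ← mul_assoc]
      have hch := exp_chord 1 (1 - τ) (by norm_num) (by linarith) (by linarith)
      simp only [div_one] at hch
      have hεe : Real.exp (-1) * Real.exp 1 = 1 := by rw [← Real.exp_add]; simp
      have h6 : 0 ≤ Real.exp (-1) * Real.exp (1 - τ) := by positivity
      have h7 := mul_le_mul_of_nonneg_right h5 h6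
      have h8 : Real.exp (-1) * Real.exp (1 - τ)
          ≤ Real.exp (-1) * (1 + (1 - τ) * (Real.exp 1 - 1)) :=
        mul_le_mul_of_nonneg_left hch hε.le
      have h9 : Real.exp (-1) * (1 + (1 - τ) * (Real.exp 1 - 1))
          = Real.exp (-1) + (Real.exp (-1) * Real.exp 1 - Real.exp (-1)) * (1 - τ) := by ring
      rw [hεe] at h9
      linarith
    have hQ3' := large_far (1 - a) a' o3 A3 Q3 hs0 hs1 (by linarith) ha'1 (by linarith)
      (by linarith) ho3 hQ3
    have hQ4' := large_far (1 - a) a' o4 A4 Q4 hs0 hs1 (by linarith) ha'1 (by linarith)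
      (by linarith) ho4 hQ4
    have hmain := large_s (1 - a) (by linarith) hs1
    have e6 : 1 - a - 1 = -a := by ring
    rw [e6] at hmain
    have h10 : (1 - Real.exp (-1)) * ((1 - τ) + (1 - A3) + (1 - A4))
        ≤ (1 + 2 * Real.exp (-1)) * ((1 - τ) + (1 - A3) + (1 - A4)) :=
      mul_le_mul_of_nonneg_right (by linarith) (by linarith)
    have e4 : (1 + 2 * Real.exp (-1)) * (1 + (1 - a) + (1 - τ) + (1 - A3) + (1 - A4))
        = (1 + 2 * Real.exp (-1)) * (1 + (1 - a))
          + (1 + 2 * Real.exp (-1)) * ((1 - τ) + (1 - A3) + (1 - A4)) := by ring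
    rw [e4]
    have e7 : (1 - Real.exp (-1)) * ((1 - τ) + (1 - A3) + (1 - A4))
        = (1 - Real.exp (-1)) * (1 - τ) + (1 - Real.exp (-1)) * (1 - A3)
          + (1 - Real.exp (-1)) * (1 - A4) := by ring
    linarith

end Vale.Agent.Lib.P334
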