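import Mathlib
import Vale.Agent.Lib.P334.Rounding
import Vale.Agent.Lib.P334.Ineq
import Vale.Agent.Lib.P334.Blocks

/-!
# Rounding the LP when client-facility distances are integers in `{1,…,5}`
-/

namespace Vale.Agent.Lib.P334

open Finset BigOperators

variable {J F : Type*} [Fintype J] [DecidableEq J] [Fintype F] [DecidableEq F]

/-- Sublevel sets, indexed so that `lev D j l` is the set of facilities within `l+1` of `j`. -/
def lev (D : J → F → ℕ) (j : J) (l : ℕ) : Finset F :=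
  Finset.univ.filter (fun i => D j i ≤ l + 1)

omit [Fintype J] [DecidableEq J] [DecidableEq F] in
lemma lev_mono (D : J → F → ℕ) (j : J) {l l' : ℕ} (h : l ≤ l') : lev D j l ⊆ lev D j l' := by
  intro i hi
  simp only [lev, Finset.mem_filter, Finset.mem_univ, true_and] at hi ⊢
  omega

omit [Fintype J] [DecidableEq J] [DecidableEq F] in
/-- The LP cost of a client as a sum over levels. -/
lemma lp_levels (D : J → F → ℕ) (hD1 : ∀ j i, 1 ≤ D j i) (hD5 : ∀ j i, D j i ≤ 5)
    (x : J → F → ℝ) (hx1 : ∀ j, ∑ i, x j i = 1) (j : J) :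
    1 + (1 - ∑ i ∈ lev D j 0, x j i) + (1 - ∑ i ∈ lev D j 1, x j i)
      + (1 - ∑ i ∈ lev D j 2, x j i) + (1 - ∑ i ∈ lev D j 3, x j i)
      = ∑ i, x j i * (D j i : ℝ) := by
  have h : ∀ l, ∑ i ∈ lev D j l, x j i = ∑ i, x j i * (if D j i ≤ l + 1 then (1:ℝ) else 0) := by
    intro l
    simp [lev, Finset.sum_filter, mul_ite]
  rw [h 0, h 1, h 2, h 3]
  have e : ∀ i, x j i * (D j i : ℝ) = x j i
      + (x j i - x j i * (if D j i ≤ 0 + 1 then (1:ℝ) else 0))
      + (x j i - x j i * (if D j i ≤ 1 + 1 then (1:ℝ) else 0))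
      + (x j i - x j i * (if D j i ≤ 2 + 1 then (1:ℝ) else 0))
      + (x j i - x j i * (if D j i ≤ 3 + 1 then (1:ℝ) else 0)) := by
    intro i
    have h1 := hD1 j i
    have h5 := hD5 j i
    obtain ⟨n, hn⟩ : ∃ n, D j i = n := ⟨_, rfl⟩
    rw [hn] at h1 h5 ⊢
    interval_cases n <;> norm_num <;> ring
  rw [Finset.sum_congr rfl (fun i _ => e i)]
  simp only [Finset.sum_add_distrib, Finset.sum_sub_distrib, hx1 j]

/-- Main rounding statement on abstract index types. -/
theorem int_main (D : J → F → ℕ) (hD1 : ∀ j i, 1 ≤ D j i) (hD5 : ∀ j i, D j i ≤ 5)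
    (hq : ∀ j j' i i', D j i ≤ D j i' + D j' i' + D j' i)
    (x : J → F → ℝ) (y : F → ℝ) (hy0 : ∀ i, 0 ≤ y i) (hy1 : ∀ i, y i ≤ 1)
    (hx0 : ∀ j i, 0 ≤ x j i) (hxy : ∀ j i, x j i ≤ y i) (hx1 : ∀ j, ∑ i, x j i = 1)
    (k : ℕ) (hk : ∑ i, y i ≤ k) (i₀ : F) :
    ∃ S : Finset F, S.card ≤ k ∧
      ∑ j, (1 + ∑ l ∈ Finset.range 4, (if Disjoint S (lev D j l) then (1:ℝ) else 0))
        ≤ (1 + 2 * Real.exp (-1)) * ∑ j, ∑ i, x j i * (D j i : ℝ) := by
  classical
  set s : J → Finset F := fun j => (lev D j 0).filter (fun i => 0 < x j i) with hs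
  set a : J → ℝ := fun j => ∑ i ∈ lev D j 0, x j i with ha
  obtain ⟨M, -, hpw, hcov⟩ := exists_bundles_aux s a _ Finset.univ rfl
  set z := blk M s x y with hz
  have hz0 : ∀ t i, 0 ≤ z t i := blk_nonneg M s x y hx0 hxy hy0 hpw
  have hz1 : ∀ t, ∑ i, z t i ≤ 1 := blk_mass_le M s x y hx0 hx1 hy1
  have hK : ∑ t, ∑ i, z t i ≤ k := by
    have := blk_sum_on M s x y Finset.univ
    rw [hz, this]; exact hk
  obtain ⟨S, hScard, hS⟩ := block_rounding z hz0 hz1 k hK
    (fun m : J × Fin 4 => lev D m.1 (m.2 : ℕ)) (fun _ => (1:ℝ)) (fun _ => zero_le_one) i₀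
  refine ⟨S, hScard, ?_⟩
  simp only [one_mul] at hS
  rw [Fintype.sum_prod_type, Fintype.sum_prod_type] at hS
  -- mass of a chosen bundle
  have hmass : ∀ b ∈ M, ∑ i, zb M s x b i = a b := by
    intro b hb
    have h1 : ∀ i, zb M s x b i = if i ∈ s b then x b i else 0 := by
      intro i
      simp [zb, hb]
    simp only [h1, Finset.sum_ite_mem, Finset.univ_inter]
    simp only [hs, ha, Finset.sum_filter]
    apply Finset.sum_congr rfl
    intro i _
    split_ifs with h
    · rfl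
    · exact (le_antisymm (not_lt.mp h) (hx0 b i)).symm
  -- the block for a client
  have hblock : ∀ j, ∃ b0, a j ≤ ∑ i, zb M s x b0 i ∧ ∀ i, zb M s x b0 i ≠ 0 → D j i ≤ 3 := by
    intro j
    by_cases hne : (s j).Nonempty
    · obtain ⟨b, hb, hab, hnd⟩ := hcov j (Finset.mem_univ j) hne
      refine ⟨b, by rw [hmass b hb]; exact hab, ?_⟩
      intro i hi
      have hib : i ∈ s b := by
        by_contra hcon
        apply hi
        simp [zb, hcon]
      obtain ⟨i1, hi1j, hi1b⟩ := Finset.not_disjoint_iff.mp hnd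
      have h1 : D j i1 ≤ 1 := by
        have := (Finset.mem_filter.mp hi1j).1
        simpa [lev] using this
      have h2 : D b i1 ≤ 1 := by
        have := (Finset.mem_filter.mp hi1b).1
        simpa [lev] using this
      have h3 : D b i ≤ 1 := by
        have := (Finset.mem_filter.mp hib).1
        simpa [lev] using this
      have := hq j b i i1
      omega
    · have hempty : s j = ∅ := Finset.not_nonempty_iff_eq_empty.mp hne
      refine ⟨j, ?_, ?_⟩
      · have h0 : a j ≤ 0 := by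
          apply Finset.sum_nonpos
          intro i hi
          by_contra hcon
          push Not at hcon
          have : i ∈ s j := Finset.mem_filter.mpr ⟨hi, hcon⟩
          rw [hempty] at this
          simp at this
        exact h0.trans (Finset.sum_nonneg (fun i _ => zb_nonneg M s x hx0 j i))
      · intro i hi
        exfalso
        apply hi
        simp [zb, hempty]
  -- per-client bound
  have hclient : ∀ j, 1 + ∑ l : Fin 4, ∏ t, (1 - ∑ i ∈ lev D j (l : ℕ), z t i)
      ≤ (1 + 2 * Real.exp (-1)) * ∑ i, x j i * (D j i : ℝ) := by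
    intro j
    obtain ⟨b0, hab0, hsupp⟩ := hblock j
    set Z : F → ℝ := zb M s x b0 with hZ
    have hZ0 : ∀ i, 0 ≤ Z i := zb_nonneg M s x hx0 b0
    have hZy : ∀ i, Z i ≤ y i := zb_le_y M s x y hx0 hxy hy0 hpw b0
    have hZ1 : ∑ i, Z i ≤ 1 := hz1 (Sum.inl b0)
    have hxj0 : ∀ i, 0 ≤ x j i := hx0 j
    -- notation
    let X : ℕ → ℝ := fun l => ∑ i ∈ lev D j l, x j i
    let o : ℕ → ℝ := fun l => ∑ i ∈ lev D j l, min (x j i) (Z i)
    let W : ℕ → ℝ := fun l => ∑ i ∈ lev D j l, Z i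
    let Q : ℕ → ℝ := fun l => ∏ t, (1 - ∑ i ∈ lev D j l, z t i)
    have hW1 : ∀ l, W l ≤ ∑ i, Z i := fun l =>
      Finset.sum_le_sum_of_subset_of_nonneg (Finset.subset_univ _) (fun i _ _ => hZ0 i)
    have hQ : ∀ l, Q l ≤ (1 - W l) * Real.exp (o l - X l) := by
      intro l
      have h1 := Q_le z hz0 hz1 (lev D j l) (Sum.inl b0)
      have h2 : ∑ t, ∑ i ∈ lev D j l, z t i = ∑ i ∈ lev D j l, y i :=
        blk_sum_on M s x y (lev D j l)
      rw [h2] at h1
      have h3 : ∑ i ∈ lev D j l, z (Sum.inl b0) i = W l := rfl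
      rw [h3] at h1
      have h4 := exponent_le Z (x j) y (lev D j l) hZy (hxy j)
      have h5 : Real.exp (W l - ∑ i ∈ lev D j l, y i) ≤ Real.exp (o l - X l) :=
        Real.exp_le_exp.mpr h4
      have h6 : 0 ≤ 1 - W l := by linarith [hW1 l]
      exact h1.trans (mul_le_mul_of_nonneg_left h5 h6)
    have hol : ∀ l, o l ≤ W l := fun l => overlap_le_left Z (x j) (lev D j l)
    have hQsmall : ∀ l, Q l ≤ (1 - o l) * Real.exp (o l - X l) := by
      intro l
      exact (hQ l).trans (mul_le_mul_of_nonneg_right (by linarith [hol l]) (Real.exp_pos _).le)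
    have hWbig : ∀ l, 2 ≤ l → W l = ∑ i, Z i := by
      intro l hl
      apply Finset.sum_subset (Finset.subset_univ _)
      intro i _ hi
      by_contra hne
      apply hi
      have := hsupp i hne
      simp only [lev, Finset.mem_filter, Finset.mem_univ, true_and]
      omega
    have hXmono : ∀ {l l' : ℕ}, l ≤ l' → X l ≤ X l' := by
      intro l l' h
      exact Finset.sum_le_sum_of_subset_of_nonneg (lev_mono D j h) (fun i _ _ => hxj0 i)
    have homono : ∀ {l l' : ℕ}, l ≤ l' → o l' - X l' ≤ o l - X l := by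
      intro l l' h
      exact overlap_mono Z (x j) _ _ (lev_mono D j h) hxj0 hZ0
    have hX3 : X 3 ≤ 1 := by
      rw [← hx1 j]
      exact Finset.sum_le_sum_of_subset_of_nonneg (Finset.subset_univ _) (fun i _ _ => hxj0 i)
    have hX0 : 0 ≤ X 0 := Finset.sum_nonneg (fun i _ => hxj0 i)
    have hfin := final_ineq (X 0) (X 1) (X 2) (X 3) (∑ i, Z i) (o 0) (o 1) (o 2) (o 3)
      (Q 0) (Q 1) (Q 2) (Q 3) hX0 (hXmono (by norm_num)) (hXmono (by norm_num))
      (hXmono (by norm_num)) hX3 hab0 hZ1 (overlap_le_right Z (x j) _)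
      (homono (by norm_num)) (homono (by norm_num)) (homono (by norm_num))
      ((hol 2).trans (hW1 2)) ((hol 3).trans (hW1 3))
      (hQsmall 0) (hQsmall 1)
      (by have := hQ 2; rwa [hWbig 2 (by norm_num)] at this)
      (by have := hQ 3; rwa [hWbig 3 (by norm_num)] at this)
    have hlp := lp_levels D hD1 hD5 x hx1 j
    rw [← hlp]
    have e : ∑ l : Fin 4, ∏ t, (1 - ∑ i ∈ lev D j (l : ℕ), z t i) = Q 0 + Q 1 + Q 2 + Q 3 := by
      rw [Fin.sum_univ_four]
      rfl
    rw [e]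
    have e2 : 1 + (Q 0 + Q 1 + Q 2 + Q 3) = 1 + Q 0 + Q 1 + Q 2 + Q 3 := by ring
    rw [e2]
    exact hfin
  -- sum over clients
  have hrange : ∀ j, ∑ l ∈ Finset.range 4, (if Disjoint S (lev D j l) then (1:ℝ) else 0)
      = ∑ l : Fin 4, (if Disjoint S (lev D j (l : ℕ)) then (1:ℝ) else 0) := by
    intro j
    rw [Fin.sum_univ_eq_sum_range (fun l => if Disjoint S (lev D j l) then (1:ℝ) else 0) 4]
  simp only [hrange, Finset.sum_add_distrib]
  rw [Finset.mul_sum]
  have hsum := Finset.sum_le_sum (fun j (_ : j ∈ (Finset.univ : Finset J)) => hclient j)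
  rw [Finset.sum_add_distrib] at hsum
  simp only at hS
  linarith

end Vale.Agent.Lib.P334
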