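import Mathlib
import Vale.Agent.Lib.P334.IntMetric

/-!
# Final form of the rounding theorem on a metric space
-/

namespace Vale.Agent.Lib.P334

open Finset BigOperators

section abstract_levels

variable {J F : Type*} [Fintype J] [DecidableEq J] [Fintype F] [DecidableEq F]

omit [Fintype J] [DecidableEq J] in
/-- Some element of a nonempty set is as close as the level count says. -/
lemma exists_le_levels (D : J → F → ℕ) (hD5 : ∀ j i, D j i ≤ 5) (T : Finset F)
    (hT : T.Nonempty) (j : J) :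
    ∃ i ∈ T, (D j i : ℝ) ≤ 1 + ∑ l ∈ Finset.range 4,
      (if Disjoint T (lev D j l) then (1:ℝ) else 0) := by
  simp only [Finset.sum_range_succ, Finset.sum_range_zero, zero_add]
  have hmem : ∀ l, ¬ Disjoint T (lev D j l) → ∃ i ∈ T, D j i ≤ l + 1 := by
    intro l h
    obtain ⟨i, hi, hil⟩ := Finset.not_disjoint_iff.mp h
    exact ⟨i, hi, by simpa [lev] using hil⟩
  have hnn : ∀ l, (0:ℝ) ≤ (if Disjoint T (lev D j l) then (1:ℝ) else 0) := by
    intro l; split_ifs <;> norm_num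
  by_cases d0 : Disjoint T (lev D j 0)
  · by_cases d1 : Disjoint T (lev D j 1)
    · by_cases d2 : Disjoint T (lev D j 2)
      · by_cases d3 : Disjoint T (lev D j 3)
        · obtain ⟨i, hi⟩ := hT
          refine ⟨i, hi, ?_⟩
          rw [if_pos d0, if_pos d1, if_pos d2, if_pos d3]
          have : (D j i : ℝ) ≤ 5 := by exact_mod_cast hD5 j i
          linarith
        · obtain ⟨i, hi, hil⟩ := hmem 3 d3
          refine ⟨i, hi, ?_⟩
          rw [if_pos d0, if_pos d1, if_pos d2, if_neg d3]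
          have : (D j i : ℝ) ≤ 4 := by exact_mod_cast hil
          linarith
      · obtain ⟨i, hi, hil⟩ := hmem 2 d2
        refine ⟨i, hi, ?_⟩
        rw [if_pos d0, if_pos d1, if_neg d2]
        have : (D j i : ℝ) ≤ 3 := by exact_mod_cast hil
        linarith [hnn 3]
    · obtain ⟨i, hi, hil⟩ := hmem 1 d1
      refine ⟨i, hi, ?_⟩
      rw [if_pos d0, if_neg d1]
      have : (D j i : ℝ) ≤ 2 := by exact_mod_cast hil
      linarith [hnn 2, hnn 3]
  · obtain ⟨i, hi, hil⟩ := hmem 0 d0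
    refine ⟨i, hi, ?_⟩
    rw [if_neg d0]
    have : (D j i : ℝ) ≤ 1 := by exact_mod_cast hil
    linarith [hnn 1, hnn 2, hnn 3]

end abstract_levels

theorem int_final {X : Type*} [MetricSpace X] (J F : Finset X) (k : ℕ)
    (hk1 : 1 ≤ k) (hkF : k ≤ F.card)
    (hint : ∀ j ∈ J, ∀ i ∈ F, ∃ n : ℕ, 1 ≤ n ∧ n ≤ 5 ∧ dist j i = n)
    (x : X → X → ℝ) (y : X → ℝ)
    (hy0 : ∀ i ∈ F, 0 ≤ y i) (hy1 : ∀ i ∈ F, y i ≤ 1) (hyk : ∑ i ∈ F, y i ≤ k)
    (hx0 : ∀ j ∈ J, ∀ i ∈ F, 0 ≤ x j i) (hxy : ∀ j ∈ J, ∀ i ∈ F, x j i ≤ y i)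
    (hx1 : ∀ j ∈ J, ∑ i ∈ F, x j i = 1) :
    ∃ (S : Finset X) (hS : S.Nonempty), S ⊆ F ∧ S.card ≤ k ∧
      ∑ j ∈ J, S.inf' hS (fun i => dist j i)
        ≤ (1 + 2 * Real.exp (-1)) * ∑ j ∈ J, ∑ i ∈ F, x j i * dist j i := by
  classical
  have hF : F.Nonempty := Finset.card_pos.mp (by omega)
  obtain ⟨i0, hi0⟩ := hF
  choose! n hn1 hn5 hnd using hint
  let D : J → F → ℕ := fun j i => n j.1 i.1
  have hD1 : ∀ j i, 1 ≤ D j i := fun j i => hn1 j.1 j.2 i.1 i.2
  have hD5 : ∀ j i, D j i ≤ 5 := fun j i => hn5 j.1 j.2 i.1 i.2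
  have hDd : ∀ (j : J) (i : F), dist j.1 i.1 = (D j i : ℝ) := fun j i => hnd j.1 j.2 i.1 i.2
  have hq : ∀ j j' i i', D j i ≤ D j i' + D j' i' + D j' i := by
    intro j j' i i'
    have h1 : dist j.1 i.1 ≤ dist j.1 i'.1 + dist i'.1 j'.1 + dist j'.1 i.1 :=
      dist_triangle4 _ _ _ _
    rw [dist_comm i'.1 j'.1, hDd j i, hDd j i', hDd j' i', hDd j' i] at h1
    exact_mod_cast h1
  obtain ⟨S0, hcard, hS0⟩ := int_main D hD1 hD5 hq
    (fun j i => x j.1 i.1) (fun i => y i.1) (fun i => hy0 i.1 i.2) (fun i => hy1 i.1 i.2)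
    (fun j i => hx0 j.1 j.2 i.1 i.2) (fun j i => hxy j.1 j.2 i.1 i.2)
    (fun j => by
      have := hx1 j.1 j.2
      rw [← Finset.sum_coe_sort F] at this
      exact this)
    k (by rw [Finset.sum_coe_sort F y]; exact hyk) ⟨i0, hi0⟩
  -- make the set nonempty
  obtain ⟨T, hTne, hTcard, hTle⟩ : ∃ T : Finset F, T.Nonempty ∧ T.card ≤ k ∧
      ∀ N : Finset F, (if Disjoint T N then (1:ℝ) else 0) ≤ (if Disjoint S0 N then (1:ℝ) else 0) := by
    by_cases hne : S0.Nonempty
    · exact ⟨S0, hne, hcard, fun N => le_refl _⟩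
    · refine ⟨{⟨i0, hi0⟩}, Finset.singleton_nonempty _, by simpa using hk1, ?_⟩
      intro N
      have h0 : S0 = ∅ := Finset.not_nonempty_iff_eq_empty.mp hne
      rw [h0]
      simp only [Finset.disjoint_empty_left, if_true]
      split_ifs <;> norm_num
  have hSne : (T.map (Function.Embedding.subtype _)).Nonempty := hTne.map
  refine ⟨T.map (Function.Embedding.subtype _), hSne, ?_, ?_, ?_⟩
  · intro i hi
    obtain ⟨i', _, rfl⟩ := Finset.mem_map.mp hi
    exact i'.2
  · rwa [Finset.card_map]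
  · -- cost comparison
    have hcost : ∀ j : J, (T.map (Function.Embedding.subtype _)).inf' hSne (fun i => dist j.1 i)
        ≤ 1 + ∑ l ∈ Finset.range 4, (if Disjoint S0 (lev D j l) then (1:ℝ) else 0) := by
      intro j
      have hlev : ∃ i ∈ T, (D j i : ℝ) ≤ 1 + ∑ l ∈ Finset.range 4,
          (if Disjoint T (lev D j l) then (1:ℝ) else 0) := exists_le_levels D hD5 T hTne j
      obtain ⟨i, hiT, hi⟩ := hlev
      have hmem : (i : X) ∈ T.map (Function.Embedding.subtype _) :=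
        Finset.mem_map.mpr ⟨i, hiT, rfl⟩
      refine (Finset.inf'_le _ hmem).trans ?_
      rw [hDd j i]
      refine hi.trans ?_
      have := Finset.sum_le_sum (fun l (_ : l ∈ Finset.range 4) => hTle (lev D j l))
      linarith
    have hL : ∑ j ∈ J, (T.map (Function.Embedding.subtype _)).inf' hSne (fun i => dist j i)
        = ∑ j : J, (T.map (Function.Embedding.subtype _)).inf' hSne (fun i => dist j.1 i) :=
      (Finset.sum_coe_sort J (fun j => (T.map (Function.Embedding.subtype _)).inf' hSne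
        (fun i => dist j i))).symm
    have hR : ∑ j ∈ J, ∑ i ∈ F, x j i * dist j i = ∑ j : J, ∑ i : F, x j.1 i.1 * (D j i : ℝ) := by
      rw [← Finset.sum_coe_sort J]
      apply Finset.sum_congr rfl
      intro j _
      rw [← Finset.sum_coe_sort F]
      apply Finset.sum_congr rfl
      intro i _
      rw [hDd j i]
    rw [hL, hR]
    refine le_trans (Finset.sum_le_sum (fun j _ => hcost j)) hS0

end Vale.Agent.Lib.P334
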