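import Mathlib
import Vale.Agent.Lib.P334.Rounding
import Vale.Agent.Lib.P334.Ineq
import Vale.Agent.Lib.P334.Blocks

/-!
# Rounding the LP when client-facility distances lie in `[1,4]`

Distances are rounded up to a fine grid; on grid levels we use one family of bundles
at radius `1.15` and chord bounds for the exponentials.
-/

namespace Vale.Agent.Lib.P334

open Finset BigOperators

variable {J F : Type*} [Fintype J] [DecidableEq J] [Fintype F] [DecidableEq F]

/-- Sublevel sets of a level function. -/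
def levR (D : J → F → ℕ) (j : J) (l : ℕ) : Finset F :=
  Finset.univ.filter (fun i => D j i ≤ l)

omit [Fintype J] [DecidableEq J] [DecidableEq F] in
lemma levR_mono (D : J → F → ℕ) (j : J) {l l' : ℕ} (h : l ≤ l') : levR D j l ⊆ levR D j l' := by
  intro i hi
  simp only [levR, Finset.mem_filter, Finset.mem_univ, true_and] at hi ⊢
  omega

lemma sum_range_boole_lt (v n : ℕ) (h : v ≤ n) :
    ∑ l ∈ Finset.range n, (if v ≤ l then (0:ℝ) else 1) = v := by
  have h1 : (Finset.range n).filter (fun l => ¬ v ≤ l) = Finset.range v := by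
    ext l
    simp only [Finset.mem_filter, Finset.mem_range, not_le]
    omega
  have h2 : ∀ l, (if v ≤ l then (0:ℝ) else 1) = if ¬ v ≤ l then (1:ℝ) else 0 := by
    intro l; split_ifs <;> simp_all
  simp only [h2]
  rw [Finset.sum_boole, h1, Finset.card_range]

lemma sum_range_ite_lt (A B : ℝ) (l1 m : ℕ) :
    ∑ l ∈ Finset.range (l1 + m), (if l < l1 then A else B) = l1 * A + m * B := by
  induction m with
  | zero =>
    simp only [add_zero, Nat.cast_zero, zero_mul]
    rw [Finset.sum_congr rfl (fun l hl => if_pos (Finset.mem_range.mp hl))]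
    simp
  | succ m ih =>
    rw [← add_assoc, Finset.sum_range_succ, ih, if_neg (by omega)]
    push_cast
    ring

omit [Fintype J] [DecidableEq J] [DecidableEq F] in
/-- The LP cost as a sum over levels. -/
lemma lp_levelsR (D : J → F → ℕ) (n : ℕ) (hDn : ∀ j i, D j i ≤ n)
    (x : J → F → ℝ) (hx1 : ∀ j, ∑ i, x j i = 1) (j : J) :
    ∑ l ∈ Finset.range n, (1 - ∑ i ∈ levR D j l, x j i) = ∑ i, x j i * (D j i : ℝ) := by
  have h : ∀ l, 1 - ∑ i ∈ levR D j l, x j i
      = ∑ i, x j i * (if D j i ≤ l then (0:ℝ) else 1) := by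
    intro l
    have h1 : ∑ i ∈ levR D j l, x j i = ∑ i, if D j i ≤ l then x j i else 0 := by
      simp [levR, Finset.sum_filter]
    have e : (1:ℝ) - ∑ i, (if D j i ≤ l then x j i else 0)
        = (∑ i, x j i) - ∑ i, (if D j i ≤ l then x j i else 0) := by rw [hx1 j]
    rw [h1, e, ← Finset.sum_sub_distrib]
    apply Finset.sum_congr rfl
    intro i _
    split_ifs <;> ring
  simp only [h]
  rw [Finset.sum_comm]
  apply Finset.sum_congr rfl
  intro i _
  rw [← Finset.mul_sum, sum_range_boole_lt _ _ (hDn j i)]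

/-- Abstract rounding on levels: at most `n` levels, bundles at level `l0`, guarantee level `l1`. -/
theorem level_main (D : J → F → ℕ) (n l0 l1 : ℕ) (hl1 : l1 ≤ n) (hl0 : l0 ≤ l1)
    (hguar : ∀ j j' i i', D j i' ≤ l0 → D j' i' ≤ l0 → D j' i ≤ l0 → D j i ≤ l1)
    (x : J → F → ℝ) (y : F → ℝ) (hy0 : ∀ i, 0 ≤ y i) (hy1 : ∀ i, y i ≤ 1)
    (hx0 : ∀ j i, 0 ≤ x j i) (hxy : ∀ j i, x j i ≤ y i) (hx1 : ∀ j, ∑ i, x j i = 1)
    (k : ℕ) (hk : ∑ i, y i ≤ k) (i₀ : F) :
    ∃ S : Finset F, S.card ≤ k ∧
      ∑ j, ∑ l ∈ Finset.range n, (if Disjoint S (levR D j l) then (1:ℝ) else 0)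
        ≤ ∑ j, ((l1 : ℝ) * Real.exp (-1)
            + ((n - l1 : ℕ) : ℝ) * ((1 - ∑ i ∈ levR D j l0, x j i)
                * Real.exp (-(1 - ∑ i ∈ levR D j l0, x j i)))
            + (1 - Real.exp (-1)) * ∑ l ∈ Finset.range n, (1 - ∑ i ∈ levR D j l, x j i)) := by
  classical
  set s : J → Finset F := fun j => (levR D j l0).filter (fun i => 0 < x j i) with hs
  set a : J → ℝ := fun j => ∑ i ∈ levR D j l0, x j i with ha
  obtain ⟨M, -, hpw, hcov⟩ := exists_bundles_aux s a _ Finset.univ rfl
  set z := blk M s x y with hz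
  have hz0 : ∀ t i, 0 ≤ z t i := blk_nonneg M s x y hx0 hxy hy0 hpw
  have hz1 : ∀ t, ∑ i, z t i ≤ 1 := blk_mass_le M s x y hx0 hx1 hy1
  have hK : ∑ t, ∑ i, z t i ≤ k := by
    have := blk_sum_on M s x y Finset.univ
    rw [hz, this]; exact hk
  obtain ⟨S, hScard, hS⟩ := block_rounding z hz0 hz1 k hK
    (fun m : J × Fin n => levR D m.1 (m.2 : ℕ)) (fun _ => (1:ℝ)) (fun _ => zero_le_one) i₀
  refine ⟨S, hScard, ?_⟩
  simp only [one_mul] at hS
  rw [Fintype.sum_prod_type, Fintype.sum_prod_type] at hS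
  have hmass : ∀ b ∈ M, ∑ i, zb M s x b i = a b := by
    intro b hb
    have h1 : ∀ i, zb M s x b i = if i ∈ s b then x b i else 0 := by
      intro i
      simp [zb, hb]
    simp only [h1, Finset.sum_ite_mem, Finset.univ_inter]
    simp only [hs, ha, Finset.sum_filter]
    apply Finset.sum_congr rfl
    intro i _
    split_ifs with h
    · rfl
    · exact (le_antisymm (not_lt.mp h) (hx0 b i)).symm
  have hblock : ∀ j, ∃ b0, a j ≤ ∑ i, zb M s x b0 i ∧ ∀ i, zb M s x b0 i ≠ 0 → D j i ≤ l1 := by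
    intro j
    by_cases hne : (s j).Nonempty
    · obtain ⟨b, hb, hab, hnd⟩ := hcov j (Finset.mem_univ j) hne
      refine ⟨b, by rw [hmass b hb]; exact hab, ?_⟩
      intro i hi
      have hib : i ∈ s b := by
        by_contra hcon
        apply hi
        simp [zb, hcon]
      obtain ⟨i1, hi1j, hi1b⟩ := Finset.not_disjoint_iff.mp hnd
      have h1 : D j i1 ≤ l0 := by
        have := (Finset.mem_filter.mp hi1j).1
        simpa [levR] using this
      have h2 : D b i1 ≤ l0 := by
        have := (Finset.mem_filter.mp hi1b).1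
        simpa [levR] using this
      have h3 : D b i ≤ l0 := by
        have := (Finset.mem_filter.mp hib).1
        simpa [levR] using this
      exact hguar j b i i1 h1 h2 h3
    · have hempty : s j = ∅ := Finset.not_nonempty_iff_eq_empty.mp hne
      refine ⟨j, ?_, ?_⟩
      · have h0 : a j ≤ 0 := by
          apply Finset.sum_nonpos
          intro i hi
          by_contra hcon
          push Not at hcon
          have : i ∈ s j := Finset.mem_filter.mpr ⟨hi, hcon⟩
          rw [hempty] at this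
          simp at this
        exact h0.trans (Finset.sum_nonneg (fun i _ => zb_nonneg M s x hx0 j i))
      · intro i hi
        exfalso
        apply hi
        simp [zb, hempty]
  have hε := Real.exp_pos (-1 : ℝ)
  have hεe : Real.exp (-1) * Real.exp 1 = 1 := by rw [← Real.exp_add]; simp
  have hclient : ∀ j, ∑ l : Fin n, ∏ t, (1 - ∑ i ∈ levR D j (l : ℕ), z t i)
      ≤ (l1 : ℝ) * Real.exp (-1)
            + ((n - l1 : ℕ) : ℝ) * ((1 - ∑ i ∈ levR D j l0, x j i)
                * Real.exp (-(1 - ∑ i ∈ levR D j l0, x j i)))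
            + (1 - Real.exp (-1)) * ∑ l ∈ Finset.range n, (1 - ∑ i ∈ levR D j l, x j i) := by
    intro j
    obtain ⟨b0, hab0, hsupp⟩ := hblock j
    set Z : F → ℝ := zb M s x b0 with hZ
    have hZ0 : ∀ i, 0 ≤ Z i := zb_nonneg M s x hx0 b0
    have hZy : ∀ i, Z i ≤ y i := zb_le_y M s x y hx0 hxy hy0 hpw b0
    have hZ1 : ∑ i, Z i ≤ 1 := hz1 (Sum.inl b0)
    have hxj0 : ∀ i, 0 ≤ x j i := hx0 j
    let X : ℕ → ℝ := fun l => ∑ i ∈ levR D j l, x j i
    let o : ℕ → ℝ := fun l => ∑ i ∈ levR D j l, min (x j i) (Z i)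
    let W : ℕ → ℝ := fun l => ∑ i ∈ levR D j l, Z i
    let Q : ℕ → ℝ := fun l => ∏ t, (1 - ∑ i ∈ levR D j l, z t i)
    have hW1 : ∀ l, W l ≤ ∑ i, Z i := fun l =>
      Finset.sum_le_sum_of_subset_of_nonneg (Finset.subset_univ _) (fun i _ _ => hZ0 i)
    have hQ : ∀ l, Q l ≤ (1 - W l) * Real.exp (o l - X l) := by
      intro l
      have h1 := Q_le z hz0 hz1 (levR D j l) (Sum.inl b0)
      have h2 : ∑ t, ∑ i ∈ levR D j l, z t i = ∑ i ∈ levR D j l, y i :=
        blk_sum_on M s x y (levR D j l)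
      rw [h2] at h1
      have h3 : ∑ i ∈ levR D j l, z (Sum.inl b0) i = W l := rfl
      rw [h3] at h1
      have h4 := exponent_le Z (x j) y (levR D j l) hZy (hxy j)
      have h5 : Real.exp (W l - ∑ i ∈ levR D j l, y i) ≤ Real.exp (o l - X l) :=
        Real.exp_le_exp.mpr h4
      have h6 : 0 ≤ 1 - W l := by linarith [hW1 l]
      exact h1.trans (mul_le_mul_of_nonneg_left h5 h6)
    have hol : ∀ l, o l ≤ W l := fun l => overlap_le_left Z (x j) (levR D j l)
    have holX : ∀ l, o l ≤ X l := fun l => overlap_le_right Z (x j) (levR D j l)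
    have hX0 : ∀ l, 0 ≤ X l := fun l => Finset.sum_nonneg (fun i _ => hxj0 i)
    have hX1 : ∀ l, X l ≤ 1 := by
      intro l
      rw [← hx1 j]
      exact Finset.sum_le_sum_of_subset_of_nonneg (Finset.subset_univ _) (fun i _ _ => hxj0 i)
    have hXmono : ∀ {l l' : ℕ}, l ≤ l' → X l ≤ X l' := by
      intro l l' h
      exact Finset.sum_le_sum_of_subset_of_nonneg (levR_mono D j h) (fun i _ _ => hxj0 i)
    have hWbig : ∀ l, l1 ≤ l → W l = ∑ i, Z i := by
      intro l hl
      apply Finset.sum_subset (Finset.subset_univ _)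
      intro i _ hi
      by_contra hne
      apply hi
      have := hsupp i hne
      simp only [levR, Finset.mem_filter, Finset.mem_univ, true_and]
      omega
    -- near levels
    have hnear : ∀ l, Q l ≤ Real.exp (-1) + (1 - Real.exp (-1)) * (1 - X l) := by
      intro l
      refine (hQ l).trans ?_
      have h1 : (1 - W l) * Real.exp (o l - X l) ≤ (1 - o l) * Real.exp (o l - X l) :=
        mul_le_mul_of_nonneg_right (by linarith [hol l]) (Real.exp_pos _).le
      refine h1.trans ?_
      have h5 := one_sub_mul_exp_le (o l)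
      have hexp : Real.exp (o l - X l)
          = Real.exp (o l) * (Real.exp (-1) * Real.exp (1 - X l)) := by
        rw [← Real.exp_add, ← Real.exp_add]; congr 1; ring
      rw [hexp, ← mul_assoc]
      have hch := exp_chord 1 (1 - X l) (by norm_num) (by linarith [hX1 l]) (by linarith [hX0 l])
      simp only [div_one] at hch
      have h6 : 0 ≤ Real.exp (-1) * Real.exp (1 - X l) := by positivity
      have h7 := mul_le_mul_of_nonneg_right h5 h6
      have h8 : Real.exp (-1) * Real.exp (1 - X l)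
          ≤ Real.exp (-1) * (1 + (1 - X l) * (Real.exp 1 - 1)) :=
        mul_le_mul_of_nonneg_left hch hε.le
      have h9 : Real.exp (-1) * (1 + (1 - X l) * (Real.exp 1 - 1))
          = Real.exp (-1) + (Real.exp (-1) * Real.exp 1 - Real.exp (-1)) * (1 - X l) := by ring
      rw [hεe] at h9
      linarith
    -- far levels
    have hfar : ∀ l, l1 ≤ l → Q l ≤ (1 - X l0) * Real.exp (-(1 - X l0))
        + (1 - Real.exp (-1)) * (1 - X l) := by
      intro l hl
      have h1 := hQ l
      rw [hWbig l hl] at h1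
      exact large_far (1 - X l0) (∑ i, Z i) (o l) (X l) (Q l)
        (by linarith [hX1 l0]) (by linarith [hX0 l0]) (by linarith [hab0]) hZ1
        (by linarith [hXmono (hl0.trans hl)]) (hX1 l)
        (by have := hol l; rw [hWbig l hl] at this; exact this) h1
    have hpoint : ∀ l, Q l ≤ (if l < l1 then Real.exp (-1)
          else (1 - X l0) * Real.exp (-(1 - X l0))) + (1 - Real.exp (-1)) * (1 - X l) := by
      intro l
      split_ifs with h
      · exact hnear l
      · exact hfar l (not_lt.mp h)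
    have hsum : ∑ l ∈ Finset.range n, Q l ≤ ∑ l ∈ Finset.range n, ((if l < l1 then Real.exp (-1)
          else (1 - X l0) * Real.exp (-(1 - X l0))) + (1 - Real.exp (-1)) * (1 - X l)) :=
      Finset.sum_le_sum (fun l _ => hpoint l)
    rw [Finset.sum_add_distrib, ← Finset.mul_sum] at hsum
    obtain ⟨m, rfl⟩ : ∃ m, n = l1 + m := ⟨n - l1, by omega⟩
    rw [sum_range_ite_lt] at hsum
    have e1 : l1 + m - l1 = m := by omega
    rw [e1]
    have e2 : ∑ l : Fin (l1 + m), ∏ t, (1 - ∑ i ∈ levR D j (l : ℕ), z t i)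
        = ∑ l ∈ Finset.range (l1 + m), Q l :=
      Fin.sum_univ_eq_sum_range Q (l1 + m)
    rw [e2]
    exact hsum
  have hrange : ∀ j, ∑ l ∈ Finset.range n, (if Disjoint S (levR D j l) then (1:ℝ) else 0)
      = ∑ l : Fin n, (if Disjoint S (levR D j (l : ℕ)) then (1:ℝ) else 0) := by
    intro j
    rw [Fin.sum_univ_eq_sum_range (fun l => if Disjoint S (levR D j l) then (1:ℝ) else 0) n]
  simp only [hrange]
  exact hS.trans (Finset.sum_le_sum (fun j _ => hclient j))

/-- The numerical inequality for the radius `1.15` and ratio `4`. -/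
lemma numeric_four (e v L : ℝ) (he : e = Real.exp (-1)) (hv0 : 0 ≤ v) (hv1 : v ≤ 1)
    (hL : 0.15 * v ≤ L) :
    1 + (2.45 * e + 0.55 * (v * Real.exp (-v)) + (1 - e) * L) ≤ 1.98 * (1 + L) := by
  have h1 : (2.7182818283 : ℝ) < Real.exp 1 := Real.exp_one_gt_d9
  have h2 : Real.exp 1 < 2.7182818286 := Real.exp_one_lt_d9
  have h3 : e * Real.exp 1 = 1 := by rw [he, ← Real.exp_add]; simp
  have he0 : 0 < e := by rw [he]; exact Real.exp_pos _
  have he1 : 0.3678 ≤ e := by nlinarith
  have he2 : e ≤ 0.3679 := by nlinarith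
  have hk : v * Real.exp (-v) ≤ 0.1425 + 0.3675 * v := by
    have hq := Real.quadratic_le_exp_of_nonneg hv0
    have hmul : Real.exp (-v) * Real.exp v = 1 := by rw [← Real.exp_add]; simp
    have hp := Real.exp_pos (-v)
    have h4 : v ≤ (0.1425 + 0.3675 * v) * (1 + v + v ^ 2 / 2) := by
      have : 0 ≤ 0.1425 - 0.49 * v + 0.43875 * v ^ 2 + 0.18375 * v ^ 3 := by
        have h5 : 0 ≤ v ^ 3 := by positivity
        nlinarith [sq_nonneg (v - 0.5584)]
      nlinarith
    have h6 : (0.1425 + 0.3675 * v) * (1 + v + v ^ 2 / 2)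
        ≤ (0.1425 + 0.3675 * v) * Real.exp v :=
      mul_le_mul_of_nonneg_left hq (by positivity)
    have h7 : v ≤ (0.1425 + 0.3675 * v) * Real.exp v := h4.trans h6
    have h8 : v * Real.exp (-v) ≤ (0.1425 + 0.3675 * v) * Real.exp v * Real.exp (-v) :=
      mul_le_mul_of_nonneg_right h7 hp.le
    have h9 : (0.1425 + 0.3675 * v) * Real.exp v * Real.exp (-v) = 0.1425 + 0.3675 * v := by
      rw [mul_assoc, mul_comm (Real.exp v), hmul, mul_one]
    linarith
  have h10 : (0.98 + e) * (0.15 * v) ≤ (0.98 + e) * L :=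
    mul_le_mul_of_nonneg_left hL (by positivity)
  have h11 : 0 ≤ (e - 0.3678) * v := mul_nonneg (by linarith) hv0
  nlinarith

end Vale.Agent.Lib.P334
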