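import Mathlib
import Vale.Agent.Lib.P334.RealMetric

/-!
# Aspect ratio at most four: integrality gap below two
-/

namespace Vale.Agent.Lib.P334

open Finset BigOperators

section abstract_core

variable {J F : Type*} [Fintype J] [DecidableEq J] [Fintype F] [DecidableEq F]

omit [Fintype J] [DecidableEq J] in
/-- Counting the levels that miss a set. -/
lemma exists_le_levelsR (D : J → F → ℕ) (n : ℕ) (hDn : ∀ j i, D j i ≤ n) (T : Finset F)
    (hT : T.Nonempty) (j : J) :
    ∃ i ∈ T, (D j i : ℝ) ≤ ∑ l ∈ Finset.range n,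
      (if Disjoint T (levR D j l) then (1:ℝ) else 0) := by
  obtain ⟨i, hi, hmin⟩ := Finset.exists_min_image T (D j) hT
  refine ⟨i, hi, ?_⟩
  have h1 : ∑ l ∈ Finset.range (D j i), (if Disjoint T (levR D j l) then (1:ℝ) else 0)
      ≤ ∑ l ∈ Finset.range n, (if Disjoint T (levR D j l) then (1:ℝ) else 0) := by
    apply Finset.sum_le_sum_of_subset_of_nonneg
    · intro l hl
      exact Finset.mem_range.mpr (lt_of_lt_of_le (Finset.mem_range.mp hl) (hDn j i))
    · intro l _ _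
      split_ifs <;> norm_num
  have h2 : ∑ l ∈ Finset.range (D j i), (if Disjoint T (levR D j l) then (1:ℝ) else 0)
      = D j i := by
    have : ∀ l ∈ Finset.range (D j i), (if Disjoint T (levR D j l) then (1:ℝ) else 0) = 1 := by
      intro l hl
      rw [if_pos]
      rw [Finset.disjoint_left]
      intro i' hi' hl'
      have h3 : D j i' ≤ l := by simpa [levR] using hl'
      have h4 := hmin i' hi'
      have h5 := Finset.mem_range.mp hl
      omega
    rw [Finset.sum_congr rfl this]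
    simp
  linarith

/-- Core theorem on abstract index types for real distances in `[1,4]`. -/
theorem real_core (d : J → F → ℝ) (h1 : ∀ j i, 1 ≤ d j i) (h4 : ∀ j i, d j i ≤ 4)
    (hq : ∀ j j' i i', d j i ≤ d j i' + d j' i' + d j' i)
    (x : J → F → ℝ) (y : F → ℝ) (hy0 : ∀ i, 0 ≤ y i) (hy1 : ∀ i, y i ≤ 1)
    (hx0 : ∀ j i, 0 ≤ x j i) (hxy : ∀ j i, x j i ≤ y i) (hx1 : ∀ j, ∑ i, x j i = 1)
    (k : ℕ) (hk1 : 1 ≤ k) (hk : ∑ i, y i ≤ k) (i₀ : F) :
    ∃ (T : Finset F) (f : J → F), T.Nonempty ∧ T.card ≤ k ∧ (∀ j, f j ∈ T) ∧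
      ∑ j, d j (f j) ≤ 1.99 * ∑ j, ∑ i, x j i * d j i := by
  classical
  set D : J → F → ℕ := fun j i => ⌈1000 * (d j i - 1)⌉₊ with hD
  have hDle : ∀ j i, 1000 * (d j i - 1) ≤ D j i := fun j i => Nat.le_ceil _
  have hDge : ∀ j i, (D j i : ℝ) ≤ 1000 * (d j i - 1) + 1 := fun j i =>
    (Nat.ceil_lt_add_one (by linarith [h1 j i])).le
  have hDn : ∀ j i, D j i ≤ 3000 := fun j i => by
    refine Nat.ceil_le.mpr ?_
    push_cast
    linarith [h4 j i]
  have hguar : ∀ j j' i i', D j i' ≤ 150 → D j' i' ≤ 150 → D j' i ≤ 150 → D j i ≤ 2450 := by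
    intro j j' i i' ha hb hc
    have hcast : ∀ a b, D a b ≤ 150 → d a b ≤ 1.15 := by
      intro a b hab
      have h5 := hDle a b
      have h6 : (D a b : ℝ) ≤ 150 := by exact_mod_cast hab
      linarith
    have h7 := hq j j' i i'
    have h8 := hcast _ _ ha
    have h9 := hcast _ _ hb
    have h10 := hcast _ _ hc
    refine Nat.ceil_le.mpr ?_
    push_cast
    linarith
  obtain ⟨S, hScard, hS⟩ := level_main D 3000 150 2450 (by norm_num) (by norm_num) hguar x y hy0 hy1
    hx0 hxy hx1 k hk i₀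
  -- nonempty version
  obtain ⟨T, hTne, hTcard, hTle⟩ : ∃ T : Finset F, T.Nonempty ∧ T.card ≤ k ∧
      ∀ N : Finset F, (if Disjoint T N then (1:ℝ) else 0) ≤ (if Disjoint S N then (1:ℝ) else 0) := by
    by_cases hne : S.Nonempty
    · exact ⟨S, hne, hScard, fun N => le_refl _⟩
    · refine ⟨{i₀}, Finset.singleton_nonempty _, by simpa using hk1, ?_⟩
      intro N
      have h0 : S = ∅ := Finset.not_nonempty_iff_eq_empty.mp hne
      rw [h0]
      simp only [Finset.disjoint_empty_left, if_true]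
      split_ifs <;> norm_num
  have hchoose : ∀ j, ∃ i ∈ T, (D j i : ℝ) ≤ ∑ l ∈ Finset.range 3000,
      (if Disjoint S (levR D j l) then (1:ℝ) else 0) := by
    intro j
    obtain ⟨i, hi, hile⟩ := exists_le_levelsR D 3000 hDn T hTne j
    refine ⟨i, hi, hile.trans ?_⟩
    exact Finset.sum_le_sum (fun l _ => hTle _)
  choose f hfT hf using hchoose
  refine ⟨T, f, hTne, hTcard, hfT, ?_⟩
  -- per-client numerical bound
  have hLP : ∀ j, ∑ l ∈ Finset.range 3000, (1 - ∑ i ∈ levR D j l, x j i)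
      = ∑ i, x j i * (D j i : ℝ) := lp_levelsR D 3000 hDn x hx1
  have hX1 : ∀ j l, ∑ i ∈ levR D j l, x j i ≤ 1 := by
    intro j l
    rw [← hx1 j]
    exact Finset.sum_le_sum_of_subset_of_nonneg (Finset.subset_univ _) (fun i _ _ => hx0 j i)
  have hX0 : ∀ j l, 0 ≤ ∑ i ∈ levR D j l, x j i :=
    fun j l => Finset.sum_nonneg (fun i _ => hx0 j i)
  have hperj : ∀ j, 1 + (1 / 1000) * ((2450 : ℕ) * Real.exp (-1)
        + ((3000 - 2450 : ℕ) : ℝ) * ((1 - ∑ i ∈ levR D j 150, x j i)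
            * Real.exp (-(1 - ∑ i ∈ levR D j 150, x j i)))
        + (1 - Real.exp (-1)) * ∑ l ∈ Finset.range 3000, (1 - ∑ i ∈ levR D j l, x j i))
      ≤ 1.98 * (1 + (1 / 1000) * ∑ l ∈ Finset.range 3000, (1 - ∑ i ∈ levR D j l, x j i)) := by
    intro j
    set v := 1 - ∑ i ∈ levR D j 150, x j i with hv
    set L := (1 / 1000) * ∑ l ∈ Finset.range 3000, (1 - ∑ i ∈ levR D j l, x j i) with hL
    have hv0 : 0 ≤ v := by simp only [hv]; linarith [hX1 j 150]
    have hv1 : v ≤ 1 := by simp only [hv]; linarith [hX0 j 150]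
    have hLge : 0.15 * v ≤ L := by
      have h5 : ∑ l ∈ Finset.range 150, v
          ≤ ∑ l ∈ Finset.range 150, (1 - ∑ i ∈ levR D j l, x j i) := by
        apply Finset.sum_le_sum
        intro l hl
        have hl' : l ≤ 150 := (Finset.mem_range.mp hl).le
        have h6 : ∑ i ∈ levR D j l, x j i ≤ ∑ i ∈ levR D j 150, x j i :=
          Finset.sum_le_sum_of_subset_of_nonneg (levR_mono D j hl') (fun i _ _ => hx0 j i)
        simp only [hv]; linarith
      have h6 : ∑ l ∈ Finset.range 150, (1 - ∑ i ∈ levR D j l, x j i)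
          ≤ ∑ l ∈ Finset.range 3000, (1 - ∑ i ∈ levR D j l, x j i) := by
        apply Finset.sum_le_sum_of_subset_of_nonneg
        · intro l hl
          exact Finset.mem_range.mpr (lt_of_lt_of_le (Finset.mem_range.mp hl) (by norm_num))
        · intro l _ _
          linarith [hX1 j l]
      have h7 : ∑ l ∈ Finset.range 150, v = 150 * v := by simp
      rw [h7] at h5
      simp only [hL]
      linarith
    have hnum := numeric_four (Real.exp (-1)) v L rfl hv0 hv1 hLge
    have e1 : ((2450 : ℕ) : ℝ) = 2450 := by norm_num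
    have e2 : ((3000 - 2450 : ℕ) : ℝ) = 550 := by norm_num
    rw [e1, e2]
    have e3 : (1 / 1000) * (2450 * Real.exp (-1) + 550 * (v * Real.exp (-v))
          + (1 - Real.exp (-1)) * ∑ l ∈ Finset.range 3000, (1 - ∑ i ∈ levR D j l, x j i))
        = 2.45 * Real.exp (-1) + 0.55 * (v * Real.exp (-v)) + (1 - Real.exp (-1)) * L := by
      simp only [hL]; ring
    rw [e3]
    exact hnum
  -- assemble
  have hd_le : ∀ j, d j (f j)
      ≤ 1 + (1 / 1000) * ∑ l ∈ Finset.range 3000,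
        (if Disjoint S (levR D j l) then (1:ℝ) else 0) := by
    intro j
    have h5 := hDle j (f j)
    have h6 := hf j
    linarith
  have hsum1 : ∑ j, d j (f j) ≤ ∑ j, (1 + (1 / 1000) * ∑ l ∈ Finset.range 3000,
        (if Disjoint S (levR D j l) then (1:ℝ) else 0)) :=
    Finset.sum_le_sum (fun j _ => hd_le j)
  have hsum2 : ∑ j, (1 + (1 / 1000) * ∑ l ∈ Finset.range 3000,
        (if Disjoint S (levR D j l) then (1:ℝ) else 0))
      ≤ ∑ j, (1 + (1 / 1000) * ((2450 : ℕ) * Real.exp (-1)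
        + ((3000 - 2450 : ℕ) : ℝ) * ((1 - ∑ i ∈ levR D j 150, x j i)
            * Real.exp (-(1 - ∑ i ∈ levR D j 150, x j i)))
        + (1 - Real.exp (-1)) * ∑ l ∈ Finset.range 3000, (1 - ∑ i ∈ levR D j l, x j i))) := by
    rw [Finset.sum_add_distrib, Finset.sum_add_distrib, ← Finset.mul_sum, ← Finset.mul_sum]
    have := mul_le_mul_of_nonneg_left hS (by norm_num : (0:ℝ) ≤ 1 / 1000)
    linarith
  have hsum3 := Finset.sum_le_sum (fun j (_ : j ∈ (Finset.univ : Finset J)) => hperj j)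
  -- LP comparison
  have hLPj : ∀ j, 1.98 * (1 + (1 / 1000) * ∑ l ∈ Finset.range 3000,
      (1 - ∑ i ∈ levR D j l, x j i)) ≤ 1.99 * ∑ i, x j i * d j i := by
    intro j
    rw [hLP j]
    have h5 : ∑ i, x j i * (D j i : ℝ) ≤ ∑ i, x j i * (1000 * (d j i - 1) + 1) :=
      Finset.sum_le_sum (fun i _ => mul_le_mul_of_nonneg_left (hDge j i) (hx0 j i))
    have h6 : ∑ i, x j i * (1000 * (d j i - 1) + 1)
        = 1000 * ∑ i, x j i * d j i - 999 * ∑ i, x j i := by
      rw [Finset.mul_sum, Finset.mul_sum, ← Finset.sum_sub_distrib]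
      apply Finset.sum_congr rfl
      intro i _
      ring
    rw [h6, hx1 j] at h5
    have h7 : 1 ≤ ∑ i, x j i * d j i := by
      calc (1:ℝ) = ∑ i, x j i * 1 := by simp [hx1 j]
        _ ≤ ∑ i, x j i * d j i :=
          Finset.sum_le_sum (fun i _ => mul_le_mul_of_nonneg_left (h1 j i) (hx0 j i))
    nlinarith
  have hsum4 := Finset.sum_le_sum (fun j (_ : j ∈ (Finset.univ : Finset J)) => hLPj j)
  rw [Finset.mul_sum]
  linarith

end abstract_core

theorem real_final {X : Type*} [MetricSpace X] (J F : Finset X) (k : ℕ)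
    (hk1 : 1 ≤ k) (hkF : k ≤ F.card) (m : ℝ) (hm : 0 < m)
    (hd : ∀ j ∈ J, ∀ i ∈ F, m ≤ dist j i ∧ dist j i ≤ 4 * m)
    (x : X → X → ℝ) (y : X → ℝ)
    (hy0 : ∀ i ∈ F, 0 ≤ y i) (hy1 : ∀ i ∈ F, y i ≤ 1) (hyk : ∑ i ∈ F, y i ≤ k)
    (hx0 : ∀ j ∈ J, ∀ i ∈ F, 0 ≤ x j i) (hxy : ∀ j ∈ J, ∀ i ∈ F, x j i ≤ y i)
    (hx1 : ∀ j ∈ J, ∑ i ∈ F, x j i = 1) :
    ∃ (S : Finset X) (hS : S.Nonempty), S ⊆ F ∧ S.card ≤ k ∧
      ∑ j ∈ J, S.inf' hS (fun i => dist j i)
        ≤ 1.99 * ∑ j ∈ J, ∑ i ∈ F, x j i * dist j i := by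
  classical
  have hF : F.Nonempty := Finset.card_pos.mp (by omega)
  obtain ⟨i0, hi0⟩ := hF
  let d : J → F → ℝ := fun j i => dist j.1 i.1 / m
  have hdd : ∀ (j : J) (i : F), dist j.1 i.1 = m * d j i := fun j i => by
    simp only [d]; field_simp
  have h1 : ∀ j i, 1 ≤ d j i := fun j i => by
    simp only [d]
    rw [le_div_iff₀ hm]
    linarith [(hd j.1 j.2 i.1 i.2).1]
  have h4 : ∀ j i, d j i ≤ 4 := fun j i => by
    simp only [d]
    rw [div_le_iff₀ hm]
    exact (hd j.1 j.2 i.1 i.2).2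
  have hq : ∀ j j' i i', d j i ≤ d j i' + d j' i' + d j' i := by
    intro j j' i i'
    have h5 : dist j.1 i.1 ≤ dist j.1 i'.1 + dist i'.1 j'.1 + dist j'.1 i.1 :=
      dist_triangle4 _ _ _ _
    rw [dist_comm i'.1 j'.1, hdd j i, hdd j i', hdd j' i', hdd j' i] at h5
    have h6 : m * d j i ≤ m * (d j i' + d j' i' + d j' i) := by linarith
    exact le_of_mul_le_mul_left h6 hm
  obtain ⟨T, f, hTne, hTcard, hfT, hcost⟩ := real_core d h1 h4 hq
    (fun j i => x j.1 i.1) (fun i => y i.1) (fun i => hy0 i.1 i.2) (fun i => hy1 i.1 i.2)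
    (fun j i => hx0 j.1 j.2 i.1 i.2) (fun j i => hxy j.1 j.2 i.1 i.2)
    (fun j => by
      have := hx1 j.1 j.2
      rw [← Finset.sum_coe_sort F] at this
      exact this)
    k hk1 (by rw [Finset.sum_coe_sort F y]; exact hyk) ⟨i0, hi0⟩
  have hSne : (T.map (Function.Embedding.subtype _)).Nonempty := hTne.map
  refine ⟨T.map (Function.Embedding.subtype _), hSne, ?_, ?_, ?_⟩
  · intro i hi
    obtain ⟨i', _, rfl⟩ := Finset.mem_map.mp hi
    exact i'.2
  · rwa [Finset.card_map]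
  · have hc : ∀ j : J, (T.map (Function.Embedding.subtype _)).inf' hSne (fun i => dist j.1 i)
        ≤ m * d j (f j) := by
      intro j
      have hmem : ((f j : F) : X) ∈ T.map (Function.Embedding.subtype _) :=
        Finset.mem_map.mpr ⟨f j, hfT j, rfl⟩
      refine (Finset.inf'_le _ hmem).trans ?_
      rw [hdd j (f j)]
    have hL : ∑ j ∈ J, (T.map (Function.Embedding.subtype _)).inf' hSne (fun i => dist j i)
        = ∑ j : J, (T.map (Function.Embedding.subtype _)).inf' hSne (fun i => dist j.1 i) :=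
      (Finset.sum_coe_sort J (fun j => (T.map (Function.Embedding.subtype _)).inf' hSne
        (fun i => dist j i))).symm
    have hR : ∑ j ∈ J, ∑ i ∈ F, x j i * dist j i
        = m * ∑ j : J, ∑ i : F, x j.1 i.1 * d j i := by
      rw [← Finset.sum_coe_sort J, Finset.mul_sum]
      apply Finset.sum_congr rfl
      intro j _
      rw [← Finset.sum_coe_sort F, Finset.mul_sum]
      apply Finset.sum_congr rfl
      intro i _
      rw [hdd j i]; ring
    rw [hL, hR]
    calc ∑ j : J, (T.map (Function.Embedding.subtype _)).inf' hSne (fun i => dist j.1 i)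
        ≤ ∑ j : J, m * d j (f j) := Finset.sum_le_sum (fun j _ => hc j)
      _ = m * ∑ j : J, d j (f j) := by rw [Finset.mul_sum]
      _ ≤ m * (1.99 * ∑ j : J, ∑ i : F, x j.1 i.1 * d j i) :=
          mul_le_mul_of_nonneg_left hcost hm.le
      _ = 1.99 * (m * ∑ j : J, ∑ i : F, x j.1 i.1 * d j i) := by ring

end Vale.Agent.Lib.P334
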